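import Mathlib.Analysis.Normed.Group.Tannery
import Mathlib.LinearAlgebra.FreeModule.IdealQuotient
import Mathlib.NumberTheory.LSeries.SumCoeff
import Mathlib.NumberTheory.ZetaValues
import Mathlib.NumberTheory.RamificationInertia.Basic
import Mathlib.Analysis.Real.Pi.Bounds
import Vale.Agent.P016Z.Iface

/-!
P016: Euler product over the ideals of a number field, basic bounds for `LK` and `PK`.
-/

set_option linter.all false

open Filter Topology NumberField IsDedekindDomain

namespace Vale.Agent.P016Z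

namespace EP

section Abstract

variable {P : Type*} [DecidableEq P] (f : P → ℂ)

/-- the completely multiplicative weight of a multiset of primes -/
noncomputable def gw (m : Multiset P) : ℂ := (m.map f).prod

omit [DecidableEq P] in
@[simp] theorem gw_zero : gw f 0 = 1 := by simp [gw]

omit [DecidableEq P] in
@[simp] theorem gw_cons (v : P) (m : Multiset P) : gw f (v ::ₘ m) = f v * gw f m := by simp [gw]

/-- sum over the multisets avoiding `S` -/
noncomputable def TS (S : Finset P) : ℂ := ∑' m : Multiset P, if (∀ w ∈ S, w ∉ m) then gw f m else 0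

theorem TS_empty : TS f ∅ = ∑' m : Multiset P, gw f m := by simp only [TS, Finset.notMem_empty,
                                                              IsEmpty.forall_iff, implies_true,
                                                              ↓reduceIte]

variable {f}

omit [DecidableEq P] in
theorem summable_ite (hsum : Summable fun m : Multiset P => ‖gw f m‖)
    (p : Multiset P → Prop) [DecidablePred p] :
    Summable fun m : Multiset P => if p m then gw f m else 0 := by
  refine Summable.of_norm_bounded hsum fun m => ?_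
  split_ifs
  · exact le_rfl
  · simp

theorem TS_insert (hsum : Summable fun m : Multiset P => ‖gw f m‖) {S : Finset P} {v : P}
    (hv : v ∉ S) : TS f (insert v S) = (1 - f v) * TS f S := by
  have h1 : TS f S = TS f (insert v S) +
      ∑' m : Multiset P, if ((∀ w ∈ S, w ∉ m) ∧ v ∈ m) then gw f m else 0 := by
    unfold TS
    rw [← (summable_ite hsum _).tsum_add (summable_ite hsum _)]
    refine tsum_congr fun m => ?_
    by_cases h : ∀ w ∈ S, w ∉ m
    · by_cases h2 : v ∈ m
      · have h3 : ¬ ∀ w ∈ insert v S, w ∉ m := fun h4 => h4 v (Finset.mem_insert_self v S) h2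
        rw [if_pos h, if_neg h3, if_pos ⟨h, h2⟩, zero_add]
      · have h3 : ∀ w ∈ insert v S, w ∉ m := by
          intro w hw
          rcases Finset.mem_insert.mp hw with rfl | hw
          · exact h2
          · exact h w hw
        rw [if_pos h, if_pos h3, if_neg (fun h4 => h2 h4.2), add_zero]
    · have h3 : ¬ ∀ w ∈ insert v S, w ∉ m :=
        fun h4 => h fun w hw => h4 w (Finset.mem_insert_of_mem hw)
      rw [if_neg h, if_neg h3, if_neg (fun h4 => h h4.1), zero_add]
  have h2 : (∑' m : Multiset P, if ((∀ w ∈ S, w ∉ m) ∧ v ∈ m) then gw f m else 0) =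
      f v * TS f S := by
    have hinj : Function.Injective (fun m : Multiset P => v ::ₘ m) :=
      fun a b h => (Multiset.cons_inj_right v).mp h
    rw [← hinj.tsum_eq]
    · unfold TS
      rw [← tsum_mul_left]
      refine tsum_congr fun m => ?_
      have h3 : ((∀ w ∈ S, w ∉ v ::ₘ m) ∧ v ∈ v ::ₘ m) ↔ ∀ w ∈ S, w ∉ m := by
        constructor
        · rintro ⟨h, _⟩ w hw hm
          exact h w hw (Multiset.mem_cons_of_mem hm)
        · intro h
          refine ⟨fun w hw hm => ?_, Multiset.mem_cons_self v m⟩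
          rcases Multiset.mem_cons.mp hm with rfl | hm
          · exact hv hw
          · exact h w hw hm
      by_cases h4 : ∀ w ∈ S, w ∉ m
      · rw [if_pos (h3.mpr h4), if_pos h4, gw_cons]
      · rw [if_neg (fun h5 => h4 (h3.mp h5)), if_neg h4, mul_zero]
    · intro m hm
      rw [Function.mem_support] at hm
      have h4 : v ∈ m := by
        by_contra h5
        exact hm (if_neg fun h6 => h5 h6.2)
      obtain ⟨t, rfl⟩ := Multiset.exists_cons_of_mem h4
      exact ⟨t, rfl⟩
  rw [h2] at h1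
  rw [sub_mul, one_mul]
  exact eq_sub_of_add_eq h1.symm

theorem TS_eq (hsum : Summable fun m : Multiset P => ‖gw f m‖) (S : Finset P) :
    TS f S = (∏ v ∈ S, (1 - f v)) * ∑' m : Multiset P, gw f m := by
  induction S using Finset.induction_on with
  | empty => simp only [TS_empty, Finset.prod_empty, one_mul]
  | insert v S hv ih => rw [TS_insert hsum hv, ih, Finset.prod_insert hv, mul_assoc]

theorem tendsto_TS (hsum : Summable fun m : Multiset P => ‖gw f m‖) :
    Tendsto (fun S : Finset P => TS f S) atTop (𝓝 1) := by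
  have h : (1 : ℂ) = ∑' m : Multiset P, if m = 0 then 1 else 0 := by
    rw [tsum_ite_eq]
  rw [h]
  refine tendsto_tsum_of_dominated_convergence hsum (fun m => ?_) (Eventually.of_forall fun S m => ?_)
  · by_cases hm : m = 0
    · subst hm
      simp
    · obtain ⟨v, hv⟩ := Multiset.exists_mem_of_ne_zero hm
      refine tendsto_const_nhds.congr' ?_
      filter_upwards [eventually_ge_atTop {v}] with S hS
      rw [if_neg hm, if_neg]
      intro h2
      exact h2 v (hS (Finset.mem_singleton_self v)) hv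
  · split_ifs
    · exact le_rfl
    · simp

theorem tsum_gw_ne_zero (hsum : Summable fun m : Multiset P => ‖gw f m‖) :
    ∑' m : Multiset P, gw f m ≠ 0 := by
  intro h
  have h1 := tendsto_TS hsum
  simp only [TS_eq hsum, h, mul_zero] at h1
  exact zero_ne_one (tendsto_nhds_unique tendsto_const_nhds h1)

/-- **Euler product** -/
theorem tendsto_prod (hsum : Summable fun m : Multiset P => ‖gw f m‖) :
    Tendsto (fun S : Finset P => ∏ v ∈ S, (1 - f v)) atTop (𝓝 (∑' m : Multiset P, gw f m)⁻¹) := by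
  have h1 := (tendsto_TS hsum).mul_const (∑' m : Multiset P, gw f m)⁻¹
  rw [one_mul] at h1
  refine h1.congr fun S => ?_
  rw [TS_eq hsum, mul_assoc, mul_inv_cancel₀ (tsum_gw_ne_zero hsum), mul_one]

theorem one_sub_ne_zero (hsum : Summable fun m : Multiset P => ‖gw f m‖) (v : P) : 1 - f v ≠ 0 := by
  intro h
  have h1 : f v = 1 := (sub_eq_zero.mp h).symm
  have h2 : Function.Injective (fun k : ℕ => Multiset.replicate k v) :=
    fun a b h => Multiset.replicate_left_injective v h
  have h3 := hsum.comp_injective h2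
  have h4 : (fun k : ℕ => ‖gw f (Multiset.replicate k v)‖) = fun _ => 1 := by
    funext k
    simp [gw, h1]
  have h5 : Summable (fun _ : ℕ => (1 : ℝ)) := by
    rw [← h4]; exact h3
  exact one_ne_zero (tendsto_nhds_unique tendsto_const_nhds h5.tendsto_atTop_zero)
end Abstract

variable (E : Type) [Field E] [NumberField E]

/-- multisets of primes are nonzero ideals -/
noncomputable def idealEquiv :
    Multiset (HeightOneSpectrum (𝓞 E)) ≃ {I : Ideal (𝓞 E) // I ≠ ⊥} :=
  Equiv.ofBijective (fun m => ⟨(m.map HeightOneSpectrum.asIdeal).prod, by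
    intro h
    rw [← Ideal.zero_eq_bot] at h
    rw [Multiset.prod_eq_zero_iff, Multiset.mem_map] at h
    obtain ⟨v, _, hv⟩ := h
    exact v.ne_bot hv⟩) (by
    classical
    constructor
    · intro m m' h
      have h1 : (m.map HeightOneSpectrum.asIdeal).prod = (m'.map HeightOneSpectrum.asIdeal).prod :=
        congrArg Subtype.val h
      have h2 : ∀ m : Multiset (HeightOneSpectrum (𝓞 E)),
          UniqueFactorizationMonoid.normalizedFactors ((m.map HeightOneSpectrum.asIdeal).prod)
            = m.map HeightOneSpectrum.asIdeal := by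
        intro m
        refine UniqueFactorizationMonoid.normalizedFactors_prod_of_prime ?_
        intro p hp
        obtain ⟨v, _, rfl⟩ := Multiset.mem_map.1 hp
        exact v.prime
      have h3 := congrArg UniqueFactorizationMonoid.normalizedFactors h1
      rw [h2, h2] at h3
      exact Multiset.map_injective (fun v w h => HeightOneSpectrum.ext h) h3
    · rintro ⟨I, hI⟩
      have hI0 : I ≠ 0 := hI
      have hp : ∀ P ∈ UniqueFactorizationMonoid.normalizedFactors I, P.IsPrime ∧ P ≠ ⊥ := by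
        intro P hP
        have := UniqueFactorizationMonoid.prime_of_normalized_factor P hP
        exact ⟨Ideal.isPrime_of_prime this, this.ne_zero⟩
      refine ⟨(UniqueFactorizationMonoid.normalizedFactors I).pmap
        (fun P (hP : P.IsPrime ∧ P ≠ ⊥) => (⟨P, hP.1, hP.2⟩ : HeightOneSpectrum (𝓞 E))) hp, ?_⟩
      refine Subtype.ext ?_
      simp only [Multiset.map_pmap]
      rw [Multiset.pmap_eq_map, Multiset.map_id']
      exact Ideal.prod_normalizedFactors_eq_self hI0)

variable {E}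

/-- norm of a prime -/
noncomputable def Nv (v : HeightOneSpectrum (𝓞 E)) : ℕ := Ideal.absNorm v.asIdeal

/-- norm of a multiset of primes -/
noncomputable def Nm (m : Multiset (HeightOneSpectrum (𝓞 E))) : ℕ := (m.map Nv).prod

theorem absNorm_idealEquiv (m : Multiset (HeightOneSpectrum (𝓞 E))) :
    Ideal.absNorm (idealEquiv E m).1 = Nm m := by
  have h : (idealEquiv E m).1 = (m.map HeightOneSpectrum.asIdeal).prod := rfl
  rw [h]
  clear h
  induction m using Multiset.induction_on with
  | empty => simp only [Multiset.map_zero, Multiset.prod_zero, Ideal.one_eq_top,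
               Ideal.absNorm_top, Nm]
  | cons v m ih =>
    rw [Multiset.map_cons, Multiset.prod_cons, map_mul, ih]
    simp [Nm, Nv]

theorem Nv_pos (v : HeightOneSpectrum (𝓞 E)) : 0 < Nv v :=
  Nat.pos_of_ne_zero (fun h => v.ne_bot (Ideal.absNorm_eq_zero_iff.1 h))

theorem two_le_Nv (v : HeightOneSpectrum (𝓞 E)) : 2 ≤ Nv v := by
  have h0 := Nv_pos v
  have h1 : Nv v ≠ 1 := by
    intro h
    exact v.isPrime.ne_top (Ideal.absNorm_eq_one_iff.1 h)
  omega

theorem Nm_pos (m : Multiset (HeightOneSpectrum (𝓞 E))) : 0 < Nm m := by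
  induction m using Multiset.induction_on with
  | empty => simp [Nm]
  | cons v m ih =>
    have : Nm (v ::ₘ m) = Nv v * Nm m := by simp [Nm]
    rw [this]
    exact Nat.mul_pos (Nv_pos v) ih

/-- the fibres of the norm on multisets -/
noncomputable def fibreEquiv {n : ℕ} (hn : n ≠ 0) :
    {m : Multiset (HeightOneSpectrum (𝓞 E)) // Nm m = n} ≃
      {I : Ideal (𝓞 E) // Ideal.absNorm I = n} where
  toFun m := ⟨(idealEquiv E m.1).1, by rw [absNorm_idealEquiv]; exact m.2⟩
  invFun I := ⟨(idealEquiv E).symm ⟨I.1, by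
      intro h
      have h2 := I.2
      rw [h, Ideal.absNorm_bot] at h2
      exact hn h2.symm⟩, by rw [← absNorm_idealEquiv, Equiv.apply_symm_apply]; exact I.2⟩
  left_inv m := by simp
  right_inv I := by simp

theorem card_fibre {n : ℕ} (hn : n ≠ 0) :
    Nat.card {m : Multiset (HeightOneSpectrum (𝓞 E)) // Nm m = n} = aK E n :=
  Nat.card_congr (fibreEquiv hn)

instance finite_fibre (n : ℕ) : Finite {m : Multiset (HeightOneSpectrum (𝓞 E)) // Nm m = n} := by
  by_cases hn : n = 0
  · subst hn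
    have : IsEmpty {m : Multiset (HeightOneSpectrum (𝓞 E)) // Nm m = 0} :=
      ⟨fun m => (Nm_pos m.1).ne' m.2⟩
    infer_instance
  · have : Finite {I : Ideal (𝓞 E) // Ideal.absNorm I = n} :=
      (Ideal.finite_setOfPred_absNorm_eq n).to_subtype
    exact Finite.of_equiv _ (fibreEquiv hn).symm

theorem tsum_fibre {V : Type*} [NormedAddCommGroup V] [NormedSpace ℝ V] [CompleteSpace V]
    (n : ℕ) (c : V) :
    (∑' _ : {m : Multiset (HeightOneSpectrum (𝓞 E)) // Nm m = n}, c) =
      if n = 0 then 0 else (aK E n : ℝ) • c := by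
  have := Fintype.ofFinite {m : Multiset (HeightOneSpectrum (𝓞 E)) // Nm m = n}
  rw [tsum_fintype, Finset.sum_const, Finset.card_univ, ← Nat.card_eq_fintype_card]
  split_ifs with hn
  · subst hn
    have : IsEmpty {m : Multiset (HeightOneSpectrum (𝓞 E)) // Nm m = 0} :=
      ⟨fun m => (Nm_pos m.1).ne' m.2⟩
    simp
  · rw [card_fibre hn, Nat.cast_smul_eq_nsmul]

theorem summable_multiset {F : ℕ → ℝ} (hF : ∀ n, 0 ≤ F n)
    (h : Summable fun n : ℕ => if n = 0 then 0 else (aK E n : ℝ) * F n) :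
    Summable fun m : Multiset (HeightOneSpectrum (𝓞 E)) => F (Nm m) := by
  rw [← (Equiv.sigmaFiberEquiv (Nm (E := E))).summable_iff]
  have h1 : ((fun m : Multiset (HeightOneSpectrum (𝓞 E)) => F (Nm m)) ∘
      (Equiv.sigmaFiberEquiv (Nm (E := E)))) = fun x => F x.1 := by
    funext x
    have : Nm ((Equiv.sigmaFiberEquiv (Nm (E := E))) x) = x.1 := x.2.2
    simp only [Function.comp_apply, this]
  rw [h1, summable_sigma_of_nonneg (fun x => hF _)]
  refine ⟨fun n => Summable.of_finite, ?_⟩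
  refine h.congr fun n => ?_
  rw [tsum_fibre n (F n)]
  rfl

theorem tsum_multiset {F : ℕ → ℂ}
    (h : Summable fun n : ℕ => if n = 0 then 0 else (aK E n : ℝ) * ‖F n‖) :
    ∑' m : Multiset (HeightOneSpectrum (𝓞 E)), F (Nm m) =
      ∑' n : ℕ, if n = 0 then 0 else (aK E n : ℂ) * F n := by
  have h0 : Summable fun m : Multiset (HeightOneSpectrum (𝓞 E)) => F (Nm m) :=
    Summable.of_norm (summable_multiset (F := fun n => ‖F n‖) (fun n => norm_nonneg _) h)
  have h1 : ((fun m : Multiset (HeightOneSpectrum (𝓞 E)) => F (Nm m)) ∘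
      (Equiv.sigmaFiberEquiv (Nm (E := E)))) = fun x => F x.1 := by
    funext x
    have : Nm ((Equiv.sigmaFiberEquiv (Nm (E := E))) x) = x.1 := x.2.2
    simp only [Function.comp_apply, this]
  have h2 := (Equiv.sigmaFiberEquiv (Nm (E := E))).summable_iff.mpr h0
  rw [h1] at h2
  have h3 := (Equiv.sigmaFiberEquiv (Nm (E := E))).tsum_eq
    (fun m : Multiset (HeightOneSpectrum (𝓞 E)) => F (Nm m))
  have h4 : (∑' x : (Σ n, {m : Multiset (HeightOneSpectrum (𝓞 E)) // Nm m = n}), F x.1) =
      ∑' m : Multiset (HeightOneSpectrum (𝓞 E)), F (Nm m) := by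
    rw [← h3]
    exact tsum_congr fun x => (congrFun h1 x).symm
  rw [← h4, h2.tsum_sigma]
  refine tsum_congr fun n => ?_
  refine (tsum_fibre n (F n)).trans ?_
  split_ifs
  · rfl
  · rw [Complex.real_smul]; norm_cast

variable (E) in
theorem tendsto_sum_aK : Tendsto (fun n : ℕ => (∑ k ∈ Finset.Icc 1 n, (aK E k : ℝ)) / n) atTop
    (𝓝 (NumberField.dedekindZeta_residue E)) := by
  unfold aK
  refine ((Ideal.tendsto_norm_le_div_atTop₀ E).comp tendsto_natCast_atTop_atTop).congr fun n ↦ ?_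
  simp only [Function.comp_apply, Nat.cast_le, ← Nat.cast_sum]
  congr
  rw [← add_left_inj 1, ← Ideal.card_norm_le_eq_card_norm_le_add_one,
    show Finset.Icc 1 n = Finset.Ioc 0 n from Finset.Icc_succ_left_eq_Ioc _ _,
    show 1 = Nat.card {I : Ideal (𝓞 E) // Ideal.absNorm I = 0} by
      simp only [Ideal.absNorm_eq_zero_iff, Nat.card_eq_fintype_card, Fintype.card_unique],
    Finset.sum_Ioc_add_eq_sum_Icc (n.zero_le),
    ← Finset.card_preimage_eq_sum_card_image_eq (fun k _ ↦ Ideal.finite_setOfPred_absNorm_eq k)]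
  simp only [Finset.coe_Icc, Set.coe_eq_subtype, Set.mem_preimage, Set.mem_Icc, zero_le, true_and]

variable (E) in
theorem lseriesSummable_a {s : ℂ} (hs : 1 < s.re) :
    LSeriesSummable (fun n => (aK E n : ℂ)) s := by
  have h1 := tendsto_sum_aK E
  refine LSeriesSummable_of_sum_norm_bigO (r := 1) ?_ zero_le_one hs
  have h2 : (fun n : ℕ => (∑ k ∈ Finset.Icc 1 n, (aK E k : ℝ)) / n) =O[atTop]
      (fun _ => (1 : ℝ)) := h1.isBigO_one ℝ
  have h3 := h2.mul (Asymptotics.isBigO_refl (fun n : ℕ => (n : ℝ)) atTop)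
  refine (h3.congr' ?_ ?_)
  · filter_upwards [eventually_ne_atTop 0] with n hn
    rw [div_mul_cancel₀ _ (Nat.cast_ne_zero.mpr hn)]
    simp
  · exact Eventually.of_forall fun n => by simp

/-- the residue characteristic -/
noncomputable def rc (v : HeightOneSpectrum (𝓞 E)) : ℕ := (Nv v).minFac

theorem rc_prime (v : HeightOneSpectrum (𝓞 E)) : (rc v).Prime := by
  refine Nat.minFac_prime ?_
  have := two_le_Nv v
  omega

theorem rc_mem (v : HeightOneSpectrum (𝓞 E)) : ((rc v : ℕ) : 𝓞 E) ∈ v.asIdeal := by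
  have hmax : v.asIdeal.IsMaximal := v.isMaximal
  let _ : Field (𝓞 E ⧸ v.asIdeal) := Ideal.Quotient.field _
  have hfin : Finite (𝓞 E ⧸ v.asIdeal) := Ideal.finiteQuotientOfFreeOfNeBot _ v.ne_bot
  let _ : Fintype (𝓞 E ⧸ v.asIdeal) := Fintype.ofFinite _
  have h1 : Ideal.absNorm v.asIdeal = Fintype.card (𝓞 E ⧸ v.asIdeal) := by
    rw [Ideal.absNorm_apply, Submodule.cardQuot_apply, Nat.card_eq_fintype_card]
  have h2 : IsPrimePow (Ideal.absNorm v.asIdeal) := by
    rw [h1]; exact FiniteField.isPrimePow_card _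
  obtain ⟨p, k, hp, hk, hpk⟩ := h2
  have hp' : p.Prime := hp.nat_prime
  have h3 : rc v = p := by
    rw [rc, Nv, ← hpk]
    exact hp'.pow_minFac hk.ne'
  rw [h3]
  have h4 : ((Ideal.absNorm v.asIdeal : ℕ) : 𝓞 E) ∈ v.asIdeal := Ideal.absNorm_mem _
  rw [← hpk, Nat.cast_pow] at h4
  exact v.isPrime.mem_of_pow_mem _ h4

theorem card_rc_le (T : Finset (HeightOneSpectrum (𝓞 E))) (p : ℕ) (hT : ∀ v ∈ T, rc v = p) :
    T.card ≤ Module.finrank ℚ E := by
  classical
  rcases T.eq_empty_or_nonempty with rfl | ⟨v₀, hv₀⟩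
  · simp
  have hp : p.Prime := hT v₀ hv₀ ▸ rc_prime v₀
  have hpZ : Prime (p : ℤ) := Nat.prime_iff_prime_int.1 hp
  have hne : (Ideal.span {(p : ℤ)}) ≠ ⊥ := by
    rw [Ne, Ideal.span_singleton_eq_bot]
    exact hpZ.ne_zero
  have hprime : (Ideal.span {(p : ℤ)}).IsPrime := (Ideal.span_singleton_prime hpZ.ne_zero).2 hpZ
  have hmax : (Ideal.span {(p : ℤ)}).IsMaximal := hprime.isMaximal hne
  refine le_trans ?_ (Ideal.card_primesOverFinset_le_finrank (𝓞 E) ℚ E hne)
  rw [← Finset.card_image_of_injOn (f := HeightOneSpectrum.asIdeal)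
    (fun v _ w _ h => HeightOneSpectrum.ext h)]
  refine Finset.card_le_card ?_
  intro I hI
  obtain ⟨v, hv, rfl⟩ := Finset.mem_image.1 hI
  rw [IsDedekindDomain.mem_primesOverFinset_iff hne]
  refine ⟨v.isPrime, ⟨?_⟩⟩
  refine hmax.eq_of_le ?_ ?_
  · exact Ideal.IsPrime.ne_top (Ideal.comap_isPrime _ _)
  · rw [Ideal.span_singleton_le_iff_mem]
    change algebraMap ℤ (𝓞 E) (p : ℤ) ∈ v.asIdeal
    have := rc_mem v
    rw [hT v hv] at this
    simpa only [algebraMap_int_eq, map_natCast] using this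
/-- the weight of a prime in the Euler product of `L(s, χ ∘ N)` -/
noncomputable def fw (χ : ℕ →* ℂ) (s : ℂ) (v : HeightOneSpectrum (𝓞 E)) : ℂ :=
  χ (Nv v) * (Nv v : ℂ) ^ (-s)
theorem gw_fw (χ : ℕ →* ℂ) (s : ℂ) (m : Multiset (HeightOneSpectrum (𝓞 E))) :
    gw (fw χ s) m = χ (Nm m) * (Nm m : ℂ) ^ (-s) := by
  induction m using Multiset.induction_on with
  | empty => simp only [gw_zero, Nm, Multiset.map_zero, Multiset.prod_zero, map_one, Nat.cast_one,
               Complex.one_cpow, mul_one]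
  | cons v m ih =>
    have h : Nm (v ::ₘ m) = Nv v * Nm m := by simp [Nm]
    rw [gw_cons, ih, h, map_mul, fw, Nat.cast_mul, Complex.natCast_mul_natCast_cpow]
    ring

theorem norm_natCast_cpow_neg {n : ℕ} (hn : 0 < n) (s : ℂ) :
    ‖(n : ℂ) ^ (-s)‖ = (n : ℝ) ^ (-s.re) := by
  rw [Complex.norm_natCast_cpow_of_pos hn, Complex.neg_re]

variable (E) in
theorem summable_aK {σ : ℝ} (hσ : 1 < σ) :
    Summable fun n : ℕ => if n = 0 then 0 else (aK E n : ℝ) * (n : ℝ) ^ (-σ) := by
  have h := (lseriesSummable_a E (s := (σ : ℂ)) (by simpa using hσ)).norm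
  refine h.congr fun n => ?_
  rw [LSeries.norm_term_eq]
  split_ifs with hn
  · rfl
  · simp only [RCLike.norm_natCast, Complex.ofReal_re, div_eq_mul_inv, Nat.cast_nonneg,
      Real.rpow_neg]

theorem summable_gw {χ : ℕ →* ℂ} (hχ : ∀ n, ‖χ n‖ ≤ 1) {s : ℂ} (hs : 1 < s.re) :
    Summable fun m : Multiset (HeightOneSpectrum (𝓞 E)) => ‖gw (fw χ s) m‖ := by
  refine Summable.of_nonneg_of_le (fun m => norm_nonneg _) (fun m => ?_)
    (summable_multiset (E := E) (F := fun n => (n : ℝ) ^ (-s.re)) (fun n => by positivity)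
      (summable_aK E hs))
  rw [gw_fw, norm_mul, norm_natCast_cpow_neg (Nm_pos m)]
  have := hχ (Nm m)
  have h2 : (0 : ℝ) ≤ (Nm m : ℝ) ^ (-s.re) := by positivity
  nlinarith

theorem Lf_eq {χ : ℕ →* ℂ} (hχ : ∀ n, ‖χ n‖ ≤ 1) {s : ℂ} (hs : 1 < s.re) :
    LK E χ s = ∑' m : Multiset (HeightOneSpectrum (𝓞 E)), gw (fw χ s) m := by
  have h1 : (∑' m : Multiset (HeightOneSpectrum (𝓞 E)), gw (fw χ s) m) =
      ∑' m : Multiset (HeightOneSpectrum (𝓞 E)), (fun n : ℕ => χ n * (n : ℂ) ^ (-s)) (Nm m) :=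
    tsum_congr fun m => gw_fw χ s m
  rw [h1, tsum_multiset (E := E) (F := fun n : ℕ => χ n * (n : ℂ) ^ (-s)), LK, LSeries]
  · refine tsum_congr fun n => ?_
    rw [LSeries.term_def]
    split_ifs with hn
    · rfl
    · rw [Complex.cpow_neg]
      field_simp
  · refine Summable.of_nonneg_of_le (fun n => ?_) (fun n => ?_) (summable_aK E hs)
    · split_ifs <;> positivity
    · split_ifs with hn
      · exact le_rfl
      · gcongr
        rw [norm_mul, norm_natCast_cpow_neg (Nat.pos_of_ne_zero hn)]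
        have := hχ n
        have h2 : (0 : ℝ) ≤ (n : ℝ) ^ (-s.re) := by positivity
        nlinarith only [this, h2]

theorem Lf_ne_zero {χ : ℕ →* ℂ} (hχ : ∀ n, ‖χ n‖ ≤ 1) {s : ℂ} (hs : 1 < s.re) :
    LK E χ s ≠ 0 := by
  classical
  rw [Lf_eq hχ hs]
  exact tsum_gw_ne_zero (summable_gw hχ hs)

theorem norm_fw_le {χ : ℕ →* ℂ} (hχ : ∀ n, ‖χ n‖ ≤ 1) (s : ℂ)
    (v : HeightOneSpectrum (𝓞 E)) : ‖fw χ s v‖ ≤ (Nv v : ℝ) ^ (-s.re) := by
  rw [fw, norm_mul, norm_natCast_cpow_neg (Nv_pos v)]
  have := hχ (Nv v)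
  have h2 : (0 : ℝ) ≤ (Nv v : ℝ) ^ (-s.re) := by positivity
  nlinarith
theorem rc_le_Nv (v : HeightOneSpectrum (𝓞 E)) : rc v ≤ Nv v := Nat.minFac_le (Nv_pos v)
/-- primes of prime norm -/
noncomputable def primeNormEquiv (p : Nat.Primes) :
    {v : HeightOneSpectrum (𝓞 E) // Nv v = p} ≃ {I : Ideal (𝓞 E) // Ideal.absNorm I = p} where
  toFun v := ⟨v.1.asIdeal, v.2⟩
  invFun I := ⟨⟨I.1, Ideal.isPrime_of_irreducible_absNorm (by rw [I.2]; exact p.2), by
    intro h
    have h2 := I.2
    rw [h, Ideal.absNorm_bot] at h2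
    exact p.2.ne_zero h2.symm⟩, I.2⟩
  left_inv v := by simp
  right_inv I := by simp

theorem card_primeNorm (p : Nat.Primes) :
    Nat.card {v : HeightOneSpectrum (𝓞 E) // Nv v = p} = aK E p :=
  Nat.card_congr (primeNormEquiv p)

instance finite_primeNorm (p : Nat.Primes) : Finite {v : HeightOneSpectrum (𝓞 E) // Nv v = p} := by
  have : Finite {I : Ideal (𝓞 E) // Ideal.absNorm I = p} :=
    (Ideal.finite_setOfPred_absNorm_eq (p : ℕ)).to_subtype
  exact Finite.of_equiv _ (primeNormEquiv p).symm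

theorem aK_le (p : Nat.Primes) : aK E p ≤ Module.finrank ℚ E := by
  classical
  rw [← card_primeNorm p]
  have := Fintype.ofFinite {v : HeightOneSpectrum (𝓞 E) // Nv v = p}
  rw [Nat.card_eq_fintype_card, ← Finset.card_univ,
    ← Finset.card_map (Function.Embedding.subtype _)]
  refine card_rc_le _ p ?_
  intro v hv
  obtain ⟨w, _, rfl⟩ := Finset.mem_map.mp hv
  change (Nv w.1).minFac = p
  rw [w.2]
  exact p.2.minFac_eq
/-- the set of primes of prime norm, as a sigma type over `p` -/
noncomputable def sigmaPrimeNorm : (Σ p : Nat.Primes, {v : HeightOneSpectrum (𝓞 E) // Nv v = p}) ≃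
    {v : HeightOneSpectrum (𝓞 E) // (Nv v).Prime} where
  toFun x := ⟨x.2.1, by rw [x.2.2]; exact x.1.2⟩
  invFun v := ⟨⟨Nv v.1, v.2⟩, ⟨v.1, rfl⟩⟩
  left_inv x := by
    obtain ⟨⟨p, hp⟩, ⟨v, hv⟩⟩ := x
    simp only at hv
    subst hv
    rfl
  right_inv v := rfl

theorem summable_re_fw {χ : ℕ →* ℂ} (hχ : ∀ n, ‖χ n‖ ≤ 1) {s : ℂ} (hs : 1 < s.re) :
    Summable fun v : HeightOneSpectrum (𝓞 E) => ‖fw χ s v‖ := by
  have h1 := summable_gw (E := E) hχ hs
  have h2 : Function.Injective (fun v : HeightOneSpectrum (𝓞 E) => ({v} : Multiset _)) :=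
    fun a b h => Multiset.singleton_inj.mp h
  refine (h1.comp_injective h2).congr fun v => ?_
  simp [gw]

theorem sum_rc_le {g : ℕ → ℝ} (hg : ∀ n, 0 ≤ g n) (hs : Summable g)
    (T : Finset (HeightOneSpectrum (𝓞 E))) :
    ∑ v ∈ T, g (rc v) ≤ Module.finrank ℚ E * ∑' n, g n := by
  classical
  have h1 : ∑ v ∈ T, g (rc v) = ∑ p ∈ T.image rc, ∑ v ∈ T with rc v = p, g (rc v) :=
    (Finset.sum_fiberwise_of_maps_to (fun v hv => Finset.mem_image_of_mem _ hv) _).symm
  rw [h1]
  have h2 : ∀ p ∈ T.image rc, ∑ v ∈ T with rc v = p, g (rc v) ≤ Module.finrank ℚ E * g p := by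
    intro p _
    have h3 : ∑ v ∈ T with rc v = p, g (rc v) = ∑ v ∈ T with rc v = p, g p := by
      refine Finset.sum_congr rfl fun v hv => ?_
      rw [(Finset.mem_filter.mp hv).2]
    rw [h3, Finset.sum_const, nsmul_eq_mul]
    have h4 := card_rc_le (T.filter fun v => rc v = p) p (fun v hv => (Finset.mem_filter.mp hv).2)
    exact mul_le_mul_of_nonneg_right (by exact_mod_cast h4) (hg p)
  refine (Finset.sum_le_sum h2).trans ?_
  rw [← Finset.mul_sum]
  exact mul_le_mul_of_nonneg_left (hs.sum_le_tsum _ fun n _ => hg n) (Nat.cast_nonneg _)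

end EP

variable {K : Type} [Field K] [NumberField K]

theorem aK_prime_le {p : ℕ} (hp : p.Prime) : aK K p ≤ Module.finrank ℚ K :=
  EP.aK_le ⟨p, hp⟩

theorem summable_LK {w : ℕ → ℂ} (hw : ∀ n, ‖w n‖ ≤ 1) {s : ℂ} (hs : 1 < s.re) :
    LSeriesSummable (fun n => w n * aK K n) s := by
  refine Summable.of_norm_bounded (EP.lseriesSummable_a K hs).norm fun n => ?_
  refine LSeries.norm_term_le s ?_
  rw [norm_mul]
  exact mul_le_of_le_one_left (norm_nonneg _) (hw n)

theorem summable_PK {w : ℕ → ℂ} (hw : ∀ n, ‖w n‖ ≤ 1) {s : ℂ} (hs : 1 < s.re) :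
    LSeriesSummable (fun n => if n.Prime then w n * aK K n else 0) s := by
  refine Summable.of_norm_bounded (summable_LK (K := K) hw hs).norm fun n => ?_
  refine LSeries.norm_term_le s ?_
  split_ifs
  · exact le_rfl
  · rw [norm_zero]; exact norm_nonneg _

theorem norm_PK_le {w : ℕ → ℂ} (hw : ∀ n, ‖w n‖ ≤ 1) {s : ℂ} (hs : 2 ≤ s.re) :
    ‖PK K w s‖ ≤ Module.finrank ℚ K := by
  have h1 : HasSum (fun n : ℕ => (Module.finrank ℚ K : ℝ) * (1 / (n : ℝ) ^ 2 -
      if n = 1 then 1 else 0)) (Module.finrank ℚ K * (Real.pi ^ 2 / 6 - 1)) :=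
    (hasSum_zeta_two.sub (hasSum_ite_eq 1 (1 : ℝ))).mul_left _
  refine (tsum_of_norm_bounded h1 fun n => ?_).trans ?_
  · rw [LSeries.norm_term_eq]
    by_cases hp : n.Prime
    · rw [if_neg hp.ne_zero, if_pos hp, if_neg hp.ne_one, sub_zero, mul_one_div, norm_mul,
        Complex.norm_natCast]
      have h2 : (1 : ℝ) ≤ n := by exact_mod_cast hp.pos
      have h3 : (aK K n : ℝ) ≤ Module.finrank ℚ K := by exact_mod_cast aK_prime_le hp
      refine div_le_div₀ (Nat.cast_nonneg _)
        ((mul_le_of_le_one_left (Nat.cast_nonneg _) (hw n)).trans h3) (by positivity) ?_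
      rw [← Real.rpow_natCast]
      exact Real.rpow_le_rpow_of_exponent_le h2 (by exact_mod_cast hs)
    · rw [if_neg hp, norm_zero, zero_div, ite_self]
      refine mul_nonneg (Nat.cast_nonneg _) ?_
      split_ifs with h
      · subst h; simp
      · rw [sub_zero]; positivity
  · refine mul_le_of_le_one_right (Nat.cast_nonneg _) ?_
    have h7 := Real.pi_lt_d2
    have h8 := Real.pi_pos
    nlinarith only [h7, h8]

end Vale.Agent.P016Z
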