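import Vale.Agent.P026Z.Vor.Shift
import Mathlib.Analysis.Complex.BorelCaratheodory
import Mathlib.Analysis.Complex.HasPrimitives
import Mathlib.Analysis.Complex.Liouville
import Mathlib.Analysis.SpecialFunctions.Gaussian.FourierTransform
import Mathlib.NumberTheory.LSeries.Deriv
import Mathlib.Analysis.Calculus.LogDeriv
import Mathlib.Analysis.Complex.ExponentialBounds

/-!
P016, block CHEB: from a zero free half plane to an upper bound for the coefficients of a
Dirichlet series, by a Gaussian contour integral.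
-/

namespace Vale.Agent.P016Z.Cheb

open Complex Metric Set Filter Topology MeasureTheory

/-- The logarithmic derivative of a function without zeros in a disc. -/
theorem norm_logDeriv_le {g : ℂ → ℂ} {c s : ℂ} {R M κ : ℝ} (hM : 0 < M) (hκ : 0 < κ)
    (hg : DifferentiableOn ℂ g (ball c R)) (h0 : ∀ z ∈ ball c R, g z ≠ 0)
    (hb : ∀ z ∈ ball c R, ‖g z‖ ≤ Real.exp M * ‖g c‖) (hs : ‖s - c‖ ≤ R - κ) :
    ‖logDeriv g s‖ ≤ 8 * M * R / κ ^ 2 := by
  have hR : 0 < R := by linarith [norm_nonneg (s - c)]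
  have hc : c ∈ ball c R := mem_ball_self hR
  have hlog : DifferentiableOn ℂ (logDeriv g) (ball c R) := (hg.deriv isOpen_ball).div hg h0
  obtain ⟨L, hL0, hL⟩ := hlog.isExactOn_ball.with_val_at c 0
  have hconst : ∀ z ∈ ball c R, g z * exp (-L z) = g c := by
    intro z hz
    have hd : ∀ w ∈ ball c R, HasDerivAt (fun w => g w * exp (-L w)) 0 w := by
      intro w hw
      have h1 : HasDerivAt g (deriv g w) w :=
        (hg.differentiableAt (isOpen_ball.mem_nhds hw)).hasDerivAt
      refine (h1.mul (hL w hw).neg.cexp).congr_deriv ?_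
      have := h0 w hw
      rw [logDeriv_apply]
      field_simp
      ring
    have := isOpen_ball.is_const_of_deriv_eq_zero (convex_ball c R).isPreconnected
      (fun w hw => (hd w hw).differentiableAt.differentiableWithinAt)
      (fun w hw => (hd w hw).deriv) hz hc
    rw [this, hL0]
    simp
  have hre : ∀ z ∈ ball c R, (L z).re ≤ M := by
    intro z hz
    have h1 : g z = g c * exp (L z) := by
      rw [← hconst z hz, mul_assoc, ← exp_add, neg_add_cancel, exp_zero, mul_one]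
    have h2 := hb z hz
    rw [h1, norm_mul, norm_exp, mul_comm] at h2
    exact Real.exp_le_exp.1 (le_of_mul_le_mul_right h2 (norm_pos_iff.2 (h0 c hc)))
  have hLd : DifferentiableOn ℂ L (ball c R) := fun z hz =>
    (hL z hz).differentiableAt.differentiableWithinAt
  have hshift : ∀ z ∈ ball (0 : ℂ) R, z + c ∈ ball c R := fun z hz => by
    simpa using hz
  have hbc : ∀ z : ℂ, ‖z - c‖ ≤ R - κ / 2 → ‖L z‖ ≤ 4 * M * R / κ := by
    intro z hz
    have h1 := borelCaratheodory_zero (f := fun w => L (w + c)) (M := M) (R := R) (z := z - c) hM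
      (hLd.comp (by fun_prop) hshift) (fun w hw => hre _ (hshift w hw)) hR
      (mem_ball_zero_iff.2 (by linarith)) (by simpa using hL0)
    simp only [sub_add_cancel] at h1
    refine h1.trans ?_
    calc 2 * M * ‖z - c‖ / (R - ‖z - c‖) ≤ 2 * M * R / (κ / 2) := by
          gcongr <;> linarith
      _ = 4 * M * R / κ := by field_simp; ring
  have hsub : closedBall s (κ / 2) ⊆ ball c R := by
    intro z hz
    rw [mem_closedBall, dist_eq_norm] at hz
    rw [mem_ball, dist_eq_norm]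
    have := norm_sub_le_norm_sub_add_norm_sub z s c
    linarith
  have hs' : s ∈ ball c R := hsub (mem_closedBall_self (by positivity))
  rw [← (hL s hs').deriv]
  have h2 := norm_deriv_le_of_forall_mem_sphere_norm_le (c := s) (f := L) (C := 4 * M * R / κ)
    (half_pos hκ) (hLd.diffContOnCl_ball hsub) fun z hz => hbc z (by
      rw [mem_sphere, dist_eq_norm] at hz
      have := norm_sub_le_norm_sub_add_norm_sub z s c
      linarith)
  refine h2.trans (le_of_eq ?_)
  field_simp
  ring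

/-- the Gaussian integral -/
noncomputable def J : ℝ := ∫ t : ℝ, Real.exp (-(1 / 2) * t ^ 2)

theorem J_nonneg : 0 ≤ J := integral_nonneg fun _ => (Real.exp_pos _).le

theorem line_bound {f : ℝ → ℂ} (hf : Continuous f) {D : ℝ}
    (h : ∀ t, ‖f t‖ ≤ D * Real.exp (-(1 / 2) * t ^ 2)) : Integrable f ∧ ‖∫ t, f t‖ ≤ D * J := by
  have h1 := (integrable_exp_neg_mul_sq (show (0 : ℝ) < 1 / 2 by norm_num)).const_mul D
  refine ⟨h1.mono' hf.aestronglyMeasurable (ae_of_all _ h), ?_⟩
  rw [J, ← integral_const_mul]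
  exact norm_integral_le_of_norm_le h1 (ae_of_all _ h)

/-- the kernel `e^{u s + s²}` -/
noncomputable def ker (u : ℝ) (s : ℂ) : ℂ := exp (u * s + s ^ 2)

theorem norm_ker (u : ℝ) (s : ℂ) : ‖ker u s‖ = Real.exp (u * s.re + s.re ^ 2 - s.im ^ 2) := by
  rw [ker, norm_exp]
  congr 1
  simp [sq]
  ring

theorem norm_ker_le (u : ℝ) (s : ℂ) (h0 : 0 ≤ s.re) (h2 : s.re ≤ 2) :
    (1 + |s.im|) * ‖ker u s‖ ≤
      Real.exp (u * s.re) * Real.exp 5 * Real.exp (-(1 / 2) * s.im ^ 2) := by
  rw [norm_ker, ← Real.exp_add, ← Real.exp_add]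
  have h1 : 1 + |s.im| ≤ Real.exp |s.im| := by linarith [Real.add_one_le_exp |s.im|]
  refine (mul_le_mul_of_nonneg_right h1 (Real.exp_pos _).le).trans ?_
  rw [← Real.exp_add]
  refine Real.exp_le_exp.2 ?_
  nlinarith [sq_nonneg (|s.im| - 1), sq_abs s.im]

theorem integral_ker (u c : ℝ) : ∫ t : ℝ, ker u (c + t * I) =
    ((Real.sqrt Real.pi * Real.exp (-u ^ 2 / 4) : ℝ) : ℂ) := by
  have h := integral_cexp_quadratic (b := -1) (by simp) (I * (2 * c + u)) (c ^ 2 + u * c)
  have e1 : ∀ t : ℝ, ker u (c + t * I) =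
      exp (-1 * (t : ℂ) ^ 2 + I * (2 * c + u) * t + (c ^ 2 + u * c)) := by
    intro t
    rw [ker]
    congr 1
    linear_combination (t : ℂ) ^ 2 * I_mul_I
  simp only [e1, h]
  have e2 : (c : ℂ) ^ 2 + u * c - (I * (2 * c + u)) ^ 2 / (4 * -1) = ((-u ^ 2 / 4 : ℝ) : ℂ) := by
    push_cast
    linear_combination ((2 * c + u) ^ 2 / 4 : ℂ) * I_mul_I
  rw [e2, ofReal_mul, ofReal_exp, Real.sqrt_eq_rpow, ofReal_cpow Real.pi_pos.le]
  simp

theorem term_mul_ker (f : ℕ → ℂ) (u : ℝ) (s : ℂ) {n : ℕ} (hn : n ≠ 0) :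
    LSeries.term f s n * ker u s = f n * ker (u - Real.log n) s := by
  have h0 : (n : ℂ) ≠ 0 := by exact_mod_cast hn
  rw [LSeries.term_of_ne_zero hn, ker, ker, cpow_def_of_ne_zero h0, div_eq_mul_inv, ← exp_neg,
    mul_assoc, ← exp_add, ← natCast_log]
  congr 2
  push_cast
  ring

/-- The smoothed sum as a contour integral. -/
theorem hasSum_ker (b : ℕ → ℝ) (hb : b 0 = 0) (u c : ℝ)
    (hs : LSeriesSummable (fun n => (b n : ℂ)) c) :
    HasSum (fun n : ℕ => b n * (Real.sqrt Real.pi * Real.exp (-(u - Real.log n) ^ 2 / 4)))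
      (∫ t : ℝ, LSeries (fun n => (b n : ℂ)) (c + t * I) * ker u (c + t * I)).re := by
  have hn : ∀ (n : ℕ) (t : ℝ), ‖LSeries.term (fun n => (b n : ℂ)) (c + t * I) n * ker u (c + t * I)‖ =
      ‖LSeries.term (fun n => (b n : ℂ)) c n‖ * Real.exp (u * c + c ^ 2) *
        Real.exp (-1 * t ^ 2) := by
    intro n t
    rw [norm_mul, norm_ker, LSeries.norm_term_eq, LSeries.norm_term_eq, mul_assoc, ← Real.exp_add]
    simp [sub_eq_add_neg]
  have hg := integrable_exp_neg_mul_sq (show (0 : ℝ) < 1 by norm_num)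
  have hint : ∀ n : ℕ, Integrable fun t : ℝ =>
      LSeries.term (fun n => (b n : ℂ)) (c + t * I) n * ker u (c + t * I) := by
    intro n
    refine (hg.const_mul _).mono' ?_ (ae_of_all _ fun t => (hn n t).le)
    rcases eq_or_ne n 0 with rfl | h0
    · simp only [LSeries.term_zero, zero_mul]
      exact aestronglyMeasurable_const
    · simp only [term_mul_ker _ _ _ h0]
      unfold ker
      exact Continuous.aestronglyMeasurable (by fun_prop)
  have h1 := hasSum_integral_of_summable_integral_norm hint (by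
    simp only [hn, integral_const_mul]
    exact (hs.norm.mul_right _).mul_right _)
  simp only [tsum_mul_right] at h1
  have h2 := hasSum_re h1
  have e : (fun n : ℕ => (∫ t : ℝ, LSeries.term (fun n => (b n : ℂ)) (c + t * I) n *
      ker u (c + t * I)).re) =
      fun n : ℕ => b n * (Real.sqrt Real.pi * Real.exp (-(u - Real.log n) ^ 2 / 4)) := by
    funext n
    rcases eq_or_ne n 0 with rfl | h0
    · simp [hb]
    · simp only [term_mul_ker _ _ _ h0, integral_const_mul, integral_ker, ← ofReal_mul, ofReal_re]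
  rw [e] at h2
  exact h2

/-- the sum of the reciprocals of the squares -/
noncomputable def Z : ℝ := ∑' n : ℕ, 1 / (n : ℝ) ^ 2

theorem Z_nonneg : 0 ≤ Z := tsum_nonneg fun _ => by positivity

theorem norm_LSeries_le {a : ℕ → ℝ} {S : ℝ} (h0 : ∀ n, 0 ≤ a n) (hS : ∀ n, a n ≤ S) {s : ℂ}
    (hs : 2 ≤ s.re) : ‖LSeries (fun n => (a n : ℂ)) s‖ ≤ Z * S := by
  have h1 : Summable fun n : ℕ => 1 / (n : ℝ) ^ 2 := Real.summable_one_div_nat_pow.2 one_lt_two
  rw [Z, ← tsum_mul_right]
  refine tsum_of_norm_bounded (h1.mul_right S).hasSum fun n => ?_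
  have hS0 : 0 ≤ S := (h0 0).trans (hS 0)
  rw [LSeries.norm_term_eq]
  split_ifs with hn
  · positivity
  · have h2 : (1 : ℝ) ≤ n := by exact_mod_cast Nat.one_le_iff_ne_zero.2 hn
    have h3 : (n : ℝ) ^ 2 ≤ (n : ℝ) ^ s.re := by
      rw [← Real.rpow_natCast]
      exact Real.rpow_le_rpow_of_exponent_le h2 (by exact_mod_cast hs)
    rw [norm_real, Real.norm_eq_abs, abs_of_nonneg (h0 n), one_div_mul_eq_div]
    gcongr
    exact hS n

/-- The bound for the logarithmic derivative in the strip. -/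
theorem strip_bound {θ S : ℝ} (hθ0 : 0 ≤ θ) (hθ : θ < 1) (hS1 : 1 ≤ S) {P g : ℂ → ℂ}
    (hP : ∀ s : ℂ, 2 ≤ s.re → ‖P s‖ ≤ Z * S) (hg : DifferentiableOn ℂ g {s | θ < s.re})
    (h0 : ∀ s : ℂ, θ < s.re → g s ≠ 0) (h1 : ∀ s : ℂ, 1 < s.re → g s = (s - 1) * exp (P s))
    (h2 : ∀ s : ℂ, θ < s.re → s.re ≤ 2 → ‖g s‖ ≤ Real.exp (S * (1 + |s.im|)))
    {s : ℂ} (hs1 : (1 + θ) / 2 ≤ s.re) (hs2 : s.re ≤ 2) :
    ‖logDeriv g s‖ ≤ 16 * (3 + 2 * Z) / ((1 - θ) / 2) ^ 2 * S * (1 + |s.im|) := by
  have hZ := Z_nonneg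
  set c : ℂ := 2 + s.im * I with hc
  have hcre : c.re = 2 := by simp [hc]
  have hcim : c.im = s.im := by simp [hc]
  have hball : ∀ z ∈ ball c (2 - θ), θ < z.re ∧ |z.im| ≤ 2 + |s.im| ∧ ‖z - 1‖ ≤ 3 + |s.im| := by
    intro z hz
    rw [mem_ball, dist_eq_norm] at hz
    have k1 := abs_re_le_norm (z - c)
    have k2 := abs_im_le_norm (z - c)
    rw [sub_re, hcre] at k1
    rw [sub_im, hcim] at k2
    have k3 := norm_sub_le_norm_sub_add_norm_sub z c 1
    have k4 : ‖c - 1‖ ≤ 1 + |s.im| := by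
      refine (norm_le_abs_re_add_abs_im _).trans (le_of_eq ?_)
      simp [hcre, hcim]
      norm_num
    refine ⟨by linarith [neg_abs_le (z.re - 2)], ?_, by linarith⟩
    have := abs_sub_abs_le_abs_sub z.im s.im
    linarith
  have hgc : Real.exp (-(Z * S)) ≤ ‖g c‖ := by
    rw [h1 c (by rw [hcre]; norm_num), norm_mul, norm_exp]
    have k1 : 1 ≤ ‖c - 1‖ := by
      refine le_trans ?_ (re_le_norm _)
      rw [sub_re, hcre]; norm_num
    have k2 : -(Z * S) ≤ (P c).re := by
      have := neg_abs_le (P c).re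
      have := (abs_re_le_norm (P c)).trans (hP c hcre.ge)
      linarith
    exact (Real.exp_le_exp.2 k2).trans (le_mul_of_one_le_left (Real.exp_pos _).le k1)
  have ht := abs_nonneg s.im
  have hb : ∀ z ∈ ball c (2 - θ), ‖g z‖ ≤ Real.exp (S * (3 + |s.im|) + 2 * (Z * S)) * ‖g c‖ := by
    intro z hz
    obtain ⟨k1, k2, k3⟩ := hball z hz
    have k4 : ‖g z‖ ≤ Real.exp (S * (3 + |s.im|) + Z * S) := by
      rcases le_total z.re 2 with h | h
      · refine (h2 z k1 h).trans (Real.exp_le_exp.2 ?_)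
        have : S * (1 + |z.im|) ≤ S * (3 + |s.im|) :=
          mul_le_mul_of_nonneg_left (by linarith) (by linarith)
        nlinarith
      · rw [h1 z (by linarith), norm_mul, norm_exp, Real.exp_add]
        refine mul_le_mul (k3.trans ?_) (Real.exp_le_exp.2 ((re_le_norm _).trans (hP z h)))
          (Real.exp_pos _).le (Real.exp_pos _).le
        have := Real.add_one_le_exp (S * (3 + |s.im|))
        nlinarith
    refine k4.trans (le_trans (le_of_eq ?_) (mul_le_mul_of_nonneg_left hgc (Real.exp_pos _).le))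
    rw [← Real.exp_add]
    congr 1
    ring
  have hsc : ‖s - c‖ ≤ 2 - θ - (1 - θ) / 2 := by
    refine (norm_le_abs_re_add_abs_im _).trans ?_
    rw [sub_re, sub_im, hcre, hcim, sub_self, abs_zero, abs_of_nonpos (by linarith)]
    linarith
  have key := norm_logDeriv_le (κ := (1 - θ) / 2) (by positivity) (by linarith)
    (hg.mono fun z hz => (hball z hz).1) (fun z hz => h0 z (hball z hz).1) hb hsc
  refine key.trans ?_
  rw [div_mul_eq_mul_div, div_mul_eq_mul_div]
  refine div_le_div_of_nonneg_right ?_ (by positivity)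
  have k1 : S * (3 + |s.im|) + 2 * (Z * S) ≤ (3 + 2 * Z) * S * (1 + |s.im|) := by
    have : 0 ≤ Z * S * |s.im| := by positivity
    have : 0 ≤ S * |s.im| := by positivity
    nlinarith
  have k2 : 0 ≤ (3 + 2 * Z) * S * (1 + |s.im|) := by positivity
  nlinarith

/-- **The coefficients of the logarithm of a function without zeros in a half plane.** -/
theorem exists_coeff_bound {θ : ℝ} (hθ0 : 0 ≤ θ) (hθ : θ < 1) : ∃ C : ℝ, 0 ≤ C ∧
    ∀ (a : ℕ → ℝ) (S : ℝ) (g : ℂ → ℂ), 1 ≤ S → (∀ n, 0 ≤ a n) → (∀ n, a n ≤ S) →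
      DifferentiableOn ℂ g {s | θ < s.re} → (∀ s : ℂ, θ < s.re → g s ≠ 0) →
      (∀ s : ℂ, 1 < s.re → g s = (s - 1) * exp (LSeries (fun n => (a n : ℂ)) s)) →
      (∀ s : ℂ, θ < s.re → s.re ≤ 2 → ‖g s‖ ≤ Real.exp (S * (1 + |s.im|))) →
      ∀ X : ℕ, 2 ≤ X → ∑ n ∈ Finset.Ioc X (2 * X), a n ≤
        C * (X * Real.log X + S * (X : ℝ) ^ (1 - (1 - θ) / 2)) := by
  set B : ℝ := 16 * (3 + 2 * Z) / ((1 - θ) / 2) ^ 2 with hB
  have hZ := Z_nonneg
  have hJ := J_nonneg
  have hB0 : 0 ≤ B := by positivity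
  refine ⟨2 * Real.exp 1 * (Real.exp 5 * J) * (2 * Real.exp 1 + B), by positivity,
    fun a S g hS1 ha0 haS hg h0 h1 h2 X hX => ?_⟩
  have hX0 : (0 : ℝ) < X := by positivity
  have hX2 : (2 : ℝ) ≤ X := by exact_mod_cast hX
  set u : ℝ := Real.log X with hu
  have hl2 : 1 / 2 < Real.log 2 := by linarith [Real.log_two_gt_d9]
  have hl2' : Real.log 2 < 1 := by linarith [Real.log_two_lt_d9]
  have hu0 : 1 / 2 < u := hl2.trans_le (Real.log_le_log (by norm_num) hX2)
  set c : ℝ := 1 + 1 / (2 * u) with hc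
  have hc0 : 0 < 1 / (2 * u) := by positivity
  have hc1 : 1 < c := by linarith
  have hc2 : c ≤ 2 := by
    have : 1 / (2 * u) ≤ 1 := by rw [div_le_one (by positivity)]; linarith
    linarith
  set σ : ℝ := (1 + θ) / 2 with hσ
  have hσ1 : σ < 1 := by linarith
  have hσθ : θ < σ := by linarith
  have habs : LSeries.abscissaOfAbsConv (fun n => (a n : ℂ)) ≤ 1 :=
    LSeries.abscissaOfAbsConv_le_of_le_const ⟨S, fun n _ => by
      rw [norm_real, Real.norm_eq_abs, abs_of_nonneg (ha0 n)]; exact haS n⟩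
  have habs' : ∀ s : ℂ, 1 < s.re → LSeries.abscissaOfAbsConv (fun n => (a n : ℂ)) < s.re :=
    fun s hs => habs.trans_lt (by exact_mod_cast hs)
  have hlm : LSeries.logMul (fun n => (a n : ℂ)) = fun n : ℕ => ((Real.log n * a n : ℝ) : ℂ) := by
    funext n
    rw [LSeries.logMul, ofReal_mul, natCast_log]
  have hA : ∀ s : ℂ, 1 < s.re →
      LSeries (fun n : ℕ => ((Real.log n * a n : ℝ) : ℂ)) s = (s - 1)⁻¹ - logDeriv g s := by
    intro s hs
    have hs1 : s - 1 ≠ 0 := fun h => by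
      have := congrArg re h
      simp at this
      linarith
    have k1 := ((hasDerivAt_id s).sub_const 1).mul (LSeries_hasDerivAt (habs' s hs)).cexp
    have k2 : g =ᶠ[𝓝 s] fun s => (s - 1) * exp (LSeries (fun n => (a n : ℂ)) s) := by
      filter_upwards [(isOpen_lt continuous_const continuous_re).mem_nhds hs] with z hz
      exact h1 z hz
    have k3 := (k1.congr_of_eventuallyEq k2).deriv
    rw [logDeriv_apply, k3, h1 s hs, hlm]
    have := exp_ne_zero (LSeries (fun n => (a n : ℂ)) s)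
    simp only [id]
    field_simp
    ring
  have hopen : IsOpen {s : ℂ | θ < s.re} := isOpen_lt continuous_const continuous_re
  have hld : ∀ s : ℂ, θ < s.re → DifferentiableAt ℂ (fun s => logDeriv g s * ker u s) s := by
    intro s hs
    have k1 : DifferentiableOn ℂ (logDeriv g) {s : ℂ | θ < s.re} := (hg.deriv hopen).div hg h0
    refine (k1.differentiableAt (hopen.mem_nhds hs)).mul ?_
    unfold ker
    fun_prop
  have hbd : ∀ s : ℂ, σ ≤ s.re → s.re ≤ 2 → ‖logDeriv g s * ker u s‖ ≤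
      B * S * (Real.exp (u * s.re) * Real.exp 5) * Real.exp (-(1 / 2) * s.im ^ 2) := by
    intro s k1 k2
    have k3 := strip_bound hθ0 hθ hS1 (fun s hs => norm_LSeries_le ha0 haS hs) hg h0 h1 h2 k1 k2
    have k4 := norm_ker_le u s (by linarith) k2
    rw [norm_mul]
    calc ‖logDeriv g s‖ * ‖ker u s‖ ≤ B * S * (1 + |s.im|) * ‖ker u s‖ :=
          mul_le_mul_of_nonneg_right k3 (norm_nonneg _)
      _ = B * S * ((1 + |s.im|) * ‖ker u s‖) := by ring
      _ ≤ _ := by rw [mul_assoc (B * S)]; gcongr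
  have hline : ∀ x : ℝ, σ ≤ x → x ≤ 2 →
      (Integrable fun t : ℝ => logDeriv g (x + t * I) * ker u (x + t * I)) ∧
      ‖∫ t : ℝ, logDeriv g (x + t * I) * ker u (x + t * I)‖ ≤
        B * S * (Real.exp (u * x) * Real.exp 5) * J := by
    intro x k1 k2
    refine line_bound (continuous_iff_continuousAt.2 fun t => ?_) fun t => ?_
    · exact ContinuousAt.comp (g := fun s => logDeriv g s * ker u s)
        (f := fun t : ℝ => (x : ℂ) + t * I)
        (hld _ (by simpa using hσθ.trans_le k1)).continuousAt (by fun_prop)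
    · simpa using hbd (x + t * I) (by simpa using k1) (by simpa using k2)
  have hshift := P026Z.Vor.shift_of_decay (F := fun s => logDeriv g s * ker u s) (σ0 := σ)
    (σ1 := c) (by linarith) (fun s k1 _ => hld s (hσθ.trans_le k1))
    (g := fun T => B * S * (Real.exp (u * 2) * Real.exp 5) * Real.exp (-(1 / 2) * T ^ 2))
    (by
      have k1 : Tendsto (fun T : ℝ => -(1 / 2) * T ^ 2) atTop atBot :=
        (tendsto_pow_atTop two_ne_zero).const_mul_atTop_of_neg (by norm_num)
      simpa using (Real.tendsto_exp_atBot.comp k1).const_mul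
        (B * S * (Real.exp (u * 2) * Real.exp 5)))
    (fun s k1 k2 _ => (hbd s k1 (k2.trans hc2)).trans (by
      rw [sq_abs]
      have : u * s.re ≤ u * 2 := by gcongr; linarith
      gcongr))
    (hline σ le_rfl (by linarith)).1 (hline c (by linarith) hc2).1
  have hpole : (Integrable fun t : ℝ => ((c : ℂ) + t * I - 1)⁻¹ * ker u (c + t * I)) ∧
      ‖∫ t : ℝ, ((c : ℂ) + t * I - 1)⁻¹ * ker u (c + t * I)‖ ≤
        2 * u * (Real.exp (u * c) * Real.exp 5) * J := by
    have k0 : ∀ t : ℝ, 1 / (2 * u) ≤ ‖(c : ℂ) + t * I - 1‖ := fun t => by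
      refine le_trans (le_of_eq ?_) (re_le_norm _)
      simp [hc]
    refine line_bound (f := fun t : ℝ => ((c : ℂ) + t * I - 1)⁻¹ * ker u (c + t * I))
      (Continuous.mul (Continuous.inv₀ (by fun_prop) fun t => ?_) ?_) fun t => ?_
    · exact norm_pos_iff.1 (hc0.trans_le (k0 t))
    · unfold ker
      fun_prop
    · have k1 := norm_ker_le u (c + t * I) (by simp; linarith) (by simpa using hc2)
      have k2 : ‖((c : ℂ) + t * I - 1)⁻¹‖ ≤ 2 * u := by
        rw [norm_inv]
        refine (inv_anti₀ hc0 (k0 t)).trans (le_of_eq (by simp))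
      have k3 := le_mul_of_one_le_left (norm_nonneg (ker u (c + t * I)))
        (show 1 ≤ 1 + |((c : ℂ) + t * I).im| by simp)
      rw [norm_mul, mul_assoc (2 * u)]
      refine mul_le_mul k2 (k3.trans (k1.trans (le_of_eq ?_))) (norm_nonneg _) (by positivity)
      simp
  have hsum := hasSum_ker (fun n : ℕ => Real.log n * a n) (by simp) u c (by
    rw [← hlm]
    exact LSeriesSummable_logMul_of_lt_re (habs' c (by simpa using hc1)))
  have e1 : ∫ t : ℝ, LSeries (fun n : ℕ => ((Real.log n * a n : ℝ) : ℂ)) (c + t * I) *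
      ker u (c + t * I) = (∫ t : ℝ, ((c : ℂ) + t * I - 1)⁻¹ * ker u (c + t * I)) -
        ∫ t : ℝ, logDeriv g (σ + t * I) * ker u (σ + t * I) := by
    rw [hshift, ← integral_sub hpole.1 (hline c (by linarith) hc2).1]
    refine integral_congr_ae (ae_of_all _ fun t => ?_)
    beta_reduce
    rw [hA _ (by simpa using hc1), sub_mul]
  have e2 : Real.exp (u * c) ≤ X * Real.exp 1 := by
    have : u * c = u + 1 / 2 := by rw [hc]; field_simp
    rw [this, Real.exp_add, hu, Real.exp_log hX0]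
    gcongr
    norm_num
  have e3 : Real.exp (u * σ) = (X : ℝ) ^ (1 - (1 - θ) / 2) := by
    rw [Real.rpow_def_of_pos hX0, ← hu, hσ]
    congr 2
    ring
  have k1 := sum_le_hasSum (Finset.Ioc X (2 * X))
    (fun n _ => mul_nonneg (mul_nonneg (Real.log_natCast_nonneg n) (ha0 n)) (by positivity)) hsum
  rw [e1] at k1
  have k2 := k1.trans ((re_le_norm _).trans ((norm_sub_le _ _).trans
    (add_le_add hpole.2 (hline σ le_rfl (by linarith)).2)))
  have k3 : ∑ n ∈ Finset.Ioc X (2 * X), a n ≤ 2 * Real.exp 1 * ∑ n ∈ Finset.Ioc X (2 * X),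
      Real.log n * a n * (Real.sqrt Real.pi * Real.exp (-(u - Real.log n) ^ 2 / 4)) := by
    rw [Finset.mul_sum]
    refine Finset.sum_le_sum fun n hn => ?_
    obtain ⟨m1, m2⟩ := Finset.mem_Ioc.1 hn
    have m3 : (X : ℝ) ≤ n := by exact_mod_cast m1.le
    have m4 : (n : ℝ) ≤ 2 * X := by exact_mod_cast m2
    have m5 : u ≤ Real.log n := Real.log_le_log hX0 m3
    have m6 : Real.log n ≤ Real.log 2 + u := by
      rw [hu, ← Real.log_mul (by norm_num) hX0.ne']
      exact Real.log_le_log (by linarith) m4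
    have m7 : 1 ≤ Real.sqrt Real.pi := Real.one_le_sqrt.2 (by linarith [Real.pi_gt_three])
    have m8 : 1 ≤ Real.exp 1 * Real.exp (-(u - Real.log n) ^ 2 / 4) := by
      rw [← Real.exp_add]
      exact Real.one_le_exp (by nlinarith)
    calc a n = a n * (1 * (1 * 1)) := by ring
      _ ≤ a n * ((2 * Real.log n) * (Real.sqrt Real.pi *
          (Real.exp 1 * Real.exp (-(u - Real.log n) ^ 2 / 4)))) := by
          have := ha0 n
          gcongr
          linarith
      _ = _ := by ring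
  refine k3.trans ((mul_le_mul_of_nonneg_left k2 (by positivity)).trans ?_)
  rw [e3]
  have k4 : 0 ≤ S * (X : ℝ) ^ (1 - (1 - θ) / 2) := by positivity
  have k5 : 0 ≤ X * u := by positivity
  have k6 : 2 * u * (Real.exp (u * c) * Real.exp 5) * J ≤
      2 * u * (X * Real.exp 1 * Real.exp 5) * J := by gcongr
  have k7 : 0 ≤ Real.exp 5 * J * (B * (X * u)) := by positivity
  have k8 : 0 ≤ Real.exp 5 * J * (2 * Real.exp 1 * (S * (X : ℝ) ^ (1 - (1 - θ) / 2))) := by
    positivity
  rw [mul_assoc (2 * Real.exp 1), mul_assoc (2 * Real.exp 1)]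
  refine mul_le_mul_of_nonneg_left ?_ (by positivity)
  nlinarith

end Vale.Agent.P016Z.Cheb
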