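import Vale.Agent.P016Z.Iface
import Vale.Agent.P016Z.Cheb.Gauss
import Mathlib.NumberTheory.RamificationInertia.Basic

/-!
P016, block CHEB: primes of degree one, uniformly in the field.
-/

open NumberField

namespace Vale.Agent.P016Z

theorem Cheb.aK_le (K : Type) [Field K] [NumberField K] {p : ℕ} (hp : p.Prime) :
    aK K p ≤ Module.finrank ℚ K := by
  classical
  have hpZ : Prime (p : ℤ) := Nat.prime_iff_prime_int.1 hp
  have hne : (Ideal.span {(p : ℤ)}) ≠ ⊥ := by
    rw [Ne, Ideal.span_singleton_eq_bot]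
    exact hpZ.ne_zero
  have hmax : (Ideal.span {(p : ℤ)}).IsMaximal :=
    ((Ideal.span_singleton_prime hpZ.ne_zero).2 hpZ).isMaximal hne
  refine le_trans ?_ (Ideal.card_primesOverFinset_le_finrank (𝓞 K) ℚ K hne)
  rw [aK, ← Nat.card_eq_finsetCard]
  refine Nat.card_le_card_of_injective (fun I => ⟨I.1, ?_⟩)
    fun I J h => Subtype.ext (Subtype.mk.inj h)
  rw [IsDedekindDomain.mem_primesOverFinset_iff hne]
  have h1 : (Ideal.absNorm I.1).Prime := I.2.symm ▸ hp
  refine ⟨Ideal.isPrime_of_irreducible_absNorm ((Nat.irreducible_iff_nat_prime _).2 h1), ⟨?_⟩⟩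
  have := Ideal.span_singleton_absNorm h1
  rwa [I.2] at this

theorem Cheb.finrank_le_size (K : Type) [Field K] [NumberField K] :
    (Module.finrank ℚ K : ℝ) ≤ size K := by
  have h1 : (1 : ℝ) ≤ |(discr K : ℝ)| := by
    exact_mod_cast Int.one_le_abs (discr_ne_zero K)
  have := Real.log_nonneg h1
  unfold size
  linarith

theorem cheb {θ : ℝ} (h1 : 3 / 4 ≤ θ) (h2 : θ < 1) :
    HCONT → HBD → EXPLOG → NONVAN θ → CHEB := by
  rintro hC ⟨C₁, hB⟩ ⟨C₂, hE⟩ hN
  obtain ⟨C, hC0, H⟩ := Cheb.exists_coeff_bound (show 0 ≤ θ by linarith) h2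
  set D : ℝ := |C₁| + |C₂| + 1 with hD
  have hD1 : 1 ≤ D := by linarith [abs_nonneg C₁, abs_nonneg C₂]
  refine ⟨C * D, (1 - θ) / 2, by linarith, fun K _ _ _ X hX => ?_⟩
  obtain ⟨F, hF⟩ := hC K 1 one_ne_zero (fun _ => 1) fun _ => rfl
  obtain ⟨h, hh1, hh2, hh3⟩ := hE K 1 fun n => by simp
  have hn1 : (1 : ℝ) ≤ Module.finrank ℚ K := by exact_mod_cast Module.finrank_pos
  have hn2 := Cheb.finrank_le_size K
  have hsub : {s : ℂ | θ < s.re} ⊆ {s : ℂ | 3 / 4 < s.re} := fun s hs => h1.trans_lt hs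
  have hP : ∀ s, PK K (1 : ℕ →* ℂ) s =
      LSeries (fun n => ((if n.Prime then (aK K n : ℝ) else 0 : ℝ) : ℂ)) s := by
    intro s
    unfold PK
    congr 1
    funext n
    split_ifs <;> simp
  have key := H (fun n => if n.Prime then (aK K n : ℝ) else 0) (D * size K)
    (fun s => F s * Complex.exp (-h s)) (by nlinarith)
    (fun n => by split_ifs <;> positivity)
    (fun n => by
      split_ifs with hn
      · have : (aK K n : ℝ) ≤ Module.finrank ℚ K := by exact_mod_cast Cheb.aK_le K hn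
        nlinarith
      · nlinarith)
    ((hF.1.mono hsub).mul (hh1.mono hsub).neg.cexp)
    (fun s hs => mul_ne_zero (hN K F hF s hs) (Complex.exp_ne_zero _))
    (fun s hs => by
      have e : LK K (fun _ => 1) s = Complex.exp (PK K (1 : ℕ →* ℂ) s + h s) := hh3 s hs
      rw [hF.2 s hs, e, mul_assoc, ← Complex.exp_add, add_neg_cancel_right, hP])
    (fun s hs hs' => by
      have k1 := hB K F hF s (hsub hs) hs'
      have k2 := hh2 s (hsub hs)
      rw [norm_mul, Complex.norm_exp]
      refine (mul_le_mul_of_nonneg_right k1 (Real.exp_pos _).le).trans ?_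
      rw [← Real.exp_add]
      refine Real.exp_le_exp.2 ?_
      have k3 := (Complex.re_le_norm (-h s)).trans ((norm_neg _).trans_le k2)
      have k4 := abs_nonneg s.im
      have k5 : size K ≤ size K * (1 + |s.im|) := by nlinarith
      have k6 : C₁ * (size K * (1 + |s.im|)) ≤ |C₁| * (size K * (1 + |s.im|)) :=
        mul_le_mul_of_nonneg_right (le_abs_self _) (by linarith)
      have k7 : C₂ * Module.finrank ℚ K ≤ |C₂| * (size K * (1 + |s.im|)) :=
        mul_le_mul (le_abs_self _) (by linarith) (by linarith) (abs_nonneg _)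
      rw [hD]
      nlinarith) X hX
  rw [Nat.cast_sum, Finset.sum_filter]
  refine key.trans ?_
  rw [mul_assoc C D]
  refine mul_le_mul_of_nonneg_left ?_ hC0
  have k1 : 0 ≤ X * Real.log X := mul_nonneg (Nat.cast_nonneg X) (Real.log_natCast_nonneg X)
  nlinarith

end Vale.Agent.P016Z
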