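import Mathlib.Analysis.Complex.LocallyUniformLimit
import Mathlib.Analysis.SpecialFunctions.Complex.LogBounds
import Vale.Agent.P016Z.Cheb.Basic

/-!
P016: the Euler product of `L(s, χ ∘ N)` as `exp (PK + h)`.
-/

set_option linter.all false

open Filter Topology NumberField IsDedekindDomain

namespace Vale.Agent.P016Z

namespace EP

variable {E : Type} [Field E] [NumberField E]

theorem tsum_Nv {F : ℕ → ℂ} (hF : ∀ n, ¬ n.Prime → F n = 0)
    (h0 : Summable fun v : HeightOneSpectrum (𝓞 E) => F (Nv v)) :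
    ∑' v : HeightOneSpectrum (𝓞 E), F (Nv v) = ∑' n : ℕ, (aK E n : ℂ) * F n := by
  have h1 : ((fun v : HeightOneSpectrum (𝓞 E) => F (Nv v)) ∘
      (Equiv.sigmaFiberEquiv (Nv (E := E)))) = fun x => F x.1 := by
    funext x
    have : Nv ((Equiv.sigmaFiberEquiv (Nv (E := E))) x) = x.1 := x.2.2
    simp only [Function.comp_apply, this]
  have h2 := (Equiv.sigmaFiberEquiv (Nv (E := E))).summable_iff.mpr h0
  rw [h1] at h2
  have h3 := (Equiv.sigmaFiberEquiv (Nv (E := E))).tsum_eq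
    (fun v : HeightOneSpectrum (𝓞 E) => F (Nv v))
  have h4 : (∑' x : (Σ n : ℕ, {v : HeightOneSpectrum (𝓞 E) // Nv v = n}), F x.1) =
      ∑' v : HeightOneSpectrum (𝓞 E), F (Nv v) := by
    rw [← h3]
    exact tsum_congr fun x => (congrFun h1 x).symm
  rw [← h4, h2.tsum_sigma]
  refine tsum_congr fun n => ?_
  change (∑' _ : {v : HeightOneSpectrum (𝓞 E) // Nv v = n}, F n) = _
  by_cases hn : n.Prime
  · have : Finite {v : HeightOneSpectrum (𝓞 E) // Nv v = n} := finite_primeNorm ⟨n, hn⟩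
    have := Fintype.ofFinite {v : HeightOneSpectrum (𝓞 E) // Nv v = n}
    have h5 : Nat.card {v : HeightOneSpectrum (𝓞 E) // Nv v = n} = aK E n :=
      card_primeNorm ⟨n, hn⟩
    rw [tsum_fintype, Finset.sum_const, Finset.card_univ, ← Nat.card_eq_fintype_card, h5,
      nsmul_eq_mul]
  · rw [hF n hn, tsum_zero, mul_zero]

theorem PK_eq {χ : ℕ →* ℂ} (hχ : ∀ n, ‖χ n‖ ≤ 1) {s : ℂ} (hs : 1 < s.re) :
    HasSum (fun v : HeightOneSpectrum (𝓞 E) => if (Nv v).Prime then fw χ s v else 0)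
      (PK E χ s) := by
  have h0 : Summable fun v : HeightOneSpectrum (𝓞 E) =>
      if (Nv v).Prime then fw χ s v else 0 := by
    refine Summable.of_norm_bounded (summable_re_fw hχ hs) fun v => ?_
    split_ifs
    · exact le_rfl
    · rw [norm_zero]; exact norm_nonneg _
  have h1 := tsum_Nv (E := E) (F := fun n => if n.Prime then χ n * (n : ℂ) ^ (-s) else 0)
    (fun n hn => if_neg hn) h0
  have h2 : PK E χ s = ∑' n : ℕ, (aK E n : ℂ) * if n.Prime then χ n * (n : ℂ) ^ (-s) else 0 := by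
    refine tsum_congr fun n => ?_
    rw [LSeries.term_def]
    by_cases hn : n.Prime
    · rw [if_neg hn.ne_zero, if_pos hn, if_pos hn, Complex.cpow_neg, div_eq_mul_inv]
      ring
    · rw [if_neg hn, if_neg hn, zero_div, ite_self, mul_zero]
  rw [h2, ← h1]
  exact h0.hasSum

theorem norm_fw_le' {χ : ℕ →* ℂ} (hχ : ∀ n, ‖χ n‖ ≤ 1) {s : ℂ} (hs : 3 / 4 < s.re)
    (v : HeightOneSpectrum (𝓞 E)) : ‖fw χ s v‖ ≤ (Nv v : ℝ) ^ (-(3 / 4) : ℝ) :=
  (norm_fw_le hχ s v).trans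
    (Real.rpow_le_rpow_of_exponent_le (by exact_mod_cast Nv_pos v) (by linarith))

theorem norm_fw_small {χ : ℕ →* ℂ} (hχ : ∀ n, ‖χ n‖ ≤ 1) {s : ℂ} (hs : 3 / 4 < s.re)
    (v : HeightOneSpectrum (𝓞 E)) : ‖fw χ s v‖ ≤ 3 / 5 := by
  refine (norm_fw_le' hχ hs v).trans ?_
  have h1 : (Nv v : ℝ) ^ (-(3 / 4) : ℝ) ≤ (2 : ℝ) ^ (-(3 / 4) : ℝ) :=
    Real.rpow_le_rpow_of_nonpos two_pos (by exact_mod_cast two_le_Nv v) (by norm_num)
  refine h1.trans ?_
  rw [← pow_le_pow_iff_left₀ (by positivity) (by norm_num) (by norm_num : (4 : ℕ) ≠ 0),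
    ← Real.rpow_natCast, ← Real.rpow_mul zero_le_two]
  have h2 : (-(3 / 4) : ℝ) * ((4 : ℕ) : ℝ) = -((3 : ℕ) : ℝ) := by norm_num
  rw [h2, Real.rpow_neg zero_le_two, Real.rpow_natCast]
  norm_num

/-- the terms of the correction -/
noncomputable def tm (χ : ℕ →* ℂ) (v : HeightOneSpectrum (𝓞 E)) (s : ℂ) : ℂ :=
  -Complex.log (1 - fw χ s v) - if (Nv v).Prime then fw χ s v else 0

theorem norm_tm_le {χ : ℕ →* ℂ} (hχ : ∀ n, ‖χ n‖ ≤ 1) {s : ℂ} (hs : 3 / 4 < s.re)
    (v : HeightOneSpectrum (𝓞 E)) : ‖tm χ v s‖ ≤ 2 * (rc v : ℝ) ^ (-(3 / 2) : ℝ) := by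
  have h0 := norm_fw_small hχ hs v
  have h1 := norm_fw_le' hχ hs v
  have hr : (0 : ℝ) < rc v := by exact_mod_cast (rc_prime v).pos
  have hn := norm_nonneg (fw χ s v)
  have h2 := Complex.norm_log_one_add_sub_self_le (z := -fw χ s v) (by rw [norm_neg]; linarith)
  rw [norm_neg, sub_neg_eq_add, ← sub_eq_add_neg] at h2
  have h3 : (1 - ‖fw χ s v‖)⁻¹ ≤ 5 / 2 := by
    rw [inv_le_comm₀ (by linarith) (by norm_num)]
    linarith
  have h4 : ‖Complex.log (1 - fw χ s v) + fw χ s v‖ ≤ 5 / 4 * ‖fw χ s v‖ ^ 2 := by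
    refine h2.trans ?_
    nlinarith [sq_nonneg ‖fw χ s v‖]
  unfold tm
  split_ifs with hp
  · rw [← neg_add', norm_neg]
    have h5 : ‖fw χ s v‖ ≤ (rc v : ℝ) ^ (-(3 / 4) : ℝ) :=
      h1.trans (Real.rpow_le_rpow_of_nonpos hr (by exact_mod_cast rc_le_Nv v) (by norm_num))
    have h6 : (rc v : ℝ) ^ (-(3 / 2) : ℝ) = ((rc v : ℝ) ^ (-(3 / 4) : ℝ)) ^ 2 := by
      rw [← Real.rpow_natCast, ← Real.rpow_mul hr.le]
      norm_num
    rw [h6]
    nlinarith
  · rw [sub_zero, norm_neg]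
    have h5 : ‖fw χ s v‖ ≤ (rc v : ℝ) ^ (-(3 / 2) : ℝ) := by
      have h6 : (rc v : ℝ) ^ (-(3 / 2) : ℝ) = ((rc v : ℝ) ^ 2) ^ (-(3 / 4) : ℝ) := by
        rw [← Real.rpow_natCast, ← Real.rpow_mul hr.le]
        norm_num
      rw [h6]
      refine h1.trans (Real.rpow_le_rpow_of_nonpos (by positivity) ?_ (by norm_num))
      exact_mod_cast Nat.minFac_sq_le_self (Nv_pos v) hp
    have h7 := norm_sub_le (Complex.log (1 - fw χ s v) + fw χ s v) (fw χ s v)
    rw [add_sub_cancel_right] at h7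
    nlinarith

theorem differentiable_fw (χ : ℕ →* ℂ) (v : HeightOneSpectrum (𝓞 E)) :
    Differentiable ℂ fun s => fw χ s v :=
  (differentiable_id.neg.const_cpow
    (Or.inl (Nat.cast_ne_zero.2 (Nv_pos v).ne'))).const_mul _

theorem differentiableOn_tm {χ : ℕ →* ℂ} (hχ : ∀ n, ‖χ n‖ ≤ 1) (v : HeightOneSpectrum (𝓞 E)) :
    DifferentiableOn ℂ (tm χ v) {s | 3 / 4 < s.re} := by
  intro s hs
  have h1 : DifferentiableAt ℂ (fun s => Complex.log (1 - fw χ s v)) s :=
    ((differentiable_fw χ v s).const_sub 1).clog (by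
      rw [sub_eq_add_neg]
      refine Complex.mem_slitPlane_of_norm_lt_one ?_
      rw [norm_neg]
      exact (norm_fw_small hχ hs v).trans_lt (by norm_num))
  have h2 : DifferentiableAt ℂ (fun s => if (Nv v).Prime then fw χ s v else 0) s := by
    split_ifs
    · exact differentiable_fw χ v s
    · exact differentiableAt_const _
  exact (h1.neg.sub h2).differentiableWithinAt

end EP

open EP in
theorem expLog : EXPLOG := by
  classical
  have hg : Summable fun n : ℕ => 2 * (n : ℝ) ^ (-(3 / 2) : ℝ) :=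
    (Real.summable_nat_rpow.2 (by norm_num)).mul_left 2
  refine ⟨∑' n : ℕ, 2 * (n : ℝ) ^ (-(3 / 2) : ℝ), fun K _ _ χ hχ => ?_⟩
  have hb := sum_rc_le (E := K) (fun n => by positivity) hg
  have hs : Summable fun v : HeightOneSpectrum (𝓞 K) => 2 * (rc v : ℝ) ^ (-(3 / 2) : ℝ) :=
    summable_of_sum_le (fun v => by positivity) hb
  refine ⟨fun s => ∑' v : HeightOneSpectrum (𝓞 K), tm χ v s, ?_, fun s h => ?_, fun s h => ?_⟩
  · exact Complex.differentiableOn_tsum_of_summable_norm hs (differentiableOn_tm hχ)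
      (isOpen_lt continuous_const Complex.continuous_re) fun v s h => norm_tm_le hχ h v
  · refine (tsum_of_norm_bounded hs.hasSum fun v => norm_tm_le hχ h v).trans ?_
    rw [mul_comm]
    exact hs.tsum_le_of_sum_le hb
  · have h34 : 3 / 4 < s.re := by linarith
    have h1 : Summable fun v : HeightOneSpectrum (𝓞 K) => tm χ v s :=
      Summable.of_norm_bounded hs fun v => norm_tm_le hχ h34 v
    have h2 := (PK_eq (E := K) hχ h).add h1.hasSum
    have h3 : Tendsto (fun S : Finset (HeightOneSpectrum (𝓞 K)) => Complex.exp (∑ v ∈ S,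
        ((if (Nv v).Prime then fw χ s v else 0) + tm χ v s))) atTop
        (𝓝 (Complex.exp (PK K χ s + ∑' v : HeightOneSpectrum (𝓞 K), tm χ v s))) :=
      (Complex.continuous_exp.tendsto _).comp h2
    have h4 := (tendsto_prod (summable_gw (E := K) hχ h)).inv₀
      (inv_ne_zero (tsum_gw_ne_zero (summable_gw hχ h)))
    rw [inv_inv, ← Lf_eq hχ h] at h4
    refine tendsto_nhds_unique h4 (h3.congr fun S => ?_)
    rw [Complex.exp_sum, ← Finset.prod_inv_distrib]
    refine Finset.prod_congr rfl fun v _ => ?_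
    rw [tm, add_sub_cancel, Complex.exp_neg,
      Complex.exp_log (one_sub_ne_zero (summable_gw hχ h) v)]

end Vale.Agent.P016Z
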