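import Mathlib.NumberTheory.RamificationInertia.Galois
import Mathlib.FieldTheory.Galois.IsGaloisGroup
import Mathlib.FieldTheory.Finite.Basic
import Mathlib.NumberTheory.NumberField.Ideal.Basic
import Vale.Agent.P016Z.Iface

/-!
P016: complete splitting of primes in Galois extensions generated by radicals.
-/

open NumberField Finset Polynomial

namespace Vale.Agent.P016Z

/-- an element with `x ^ p = x` of a domain of characteristic `p` is an integer -/
theorem exists_nat_of_pow_eq {k : Type*} [CommRing k] [IsDomain k] {p : ℕ} (hp : p.Prime)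
    [CharP k p] {x : k} (hx : x ^ p = x) : ∃ c : ℕ, x = c := by
  have := Fact.mk hp
  let : Algebra (ZMod p) k := ZMod.algebra k p
  have h1 : (X ^ p - X : (ZMod p)[X]).roots = Finset.univ.val := by
    have := FiniteField.roots_X_pow_card_sub_X (ZMod p)
    rwa [ZMod.card] at this
  have hm : (X ^ p - X : (ZMod p)[X]).Monic :=
    (monic_X_pow p).sub_of_left (by rw [degree_X_pow, degree_X]; exact_mod_cast hp.one_lt)
  have h2 := prod_multiset_X_sub_C_of_monic_of_roots_card_eq hm (by
    rw [h1, FiniteField.X_pow_card_sub_X_natDegree_eq _ hp.one_lt]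
    simp)
  have h3 := congrArg (aeval x) h2
  rw [h1, map_multiset_prod, map_sub, map_pow, aeval_X, hx, sub_self, Multiset.prod_eq_zero_iff,
    Multiset.map_map, Multiset.mem_map] at h3
  obtain ⟨c, _, hc⟩ := h3
  refine ⟨c.val, ?_⟩
  simp only [Function.comp_apply, map_sub, aeval_X, aeval_C, sub_eq_zero] at hc
  rw [hc]
  conv_lhs => rw [← ZMod.natCast_zmod_val c]
  rw [map_natCast]

/-- a ring endomorphism that preserves `P` fixes radicals which split modulo `p` -/
theorem fix_root {R : Type*} [CommRing R] [IsDomain R] (P : Ideal R) [P.IsPrime] {p n : ℕ}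
    (hp : p.Prime) (hpP : (p : R) ∈ P) (hn : n ∣ p - 1) {a : ℤ} (ha : ¬ (p : ℤ) ∣ a)
    (h1 : (a : ZMod p) ^ ((p - 1) / n) = 1) (σ : R →+* R) (hσ : ∀ x ∈ P, σ x ∈ P) {β : R}
    (hβ : β ^ n = a) : σ β = β := by
  have : CharP (R ⧸ P) p := (CharP.charP_iff_prime_eq_zero hp).2 (by
    rw [← map_natCast (Ideal.Quotient.mk P), Ideal.Quotient.eq_zero_iff_mem]; exact hpP)
  have hp1 := hp.one_lt
  have hn0 : n ≠ 0 := by rintro rfl; have := Nat.eq_zero_of_zero_dvd hn; omega
  have hx : (Ideal.Quotient.mk P β) ^ n = (a : R ⧸ P) := by rw [← map_pow, hβ, map_intCast]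
  have ha0 : (a : R ⧸ P) ≠ 0 := fun h => ha ((CharP.intCast_eq_zero_iff (R ⧸ P) p a).1 h)
  have hx0 : Ideal.Quotient.mk P β ≠ 0 := fun h => ha0 (by rw [← hx, h, zero_pow hn0])
  have h2 : (a : R ⧸ P) ^ ((p - 1) / n) = 1 := by
    have := congrArg (ZMod.castHom (dvd_refl p) (R ⧸ P)) h1
    rwa [map_pow, map_intCast, map_one] at this
  have h3 : (Ideal.Quotient.mk P β) ^ p = Ideal.Quotient.mk P β := by
    have : p = n * ((p - 1) / n) + 1 := by rw [Nat.mul_div_cancel' hn]; omega
    conv_lhs => rw [this, pow_succ, pow_mul, hx, h2, one_mul]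
  obtain ⟨c, hc⟩ := exists_nat_of_pow_eq hp h3
  have h4 : β - c ∈ P := by
    rw [← Ideal.Quotient.eq, map_natCast]; exact hc
  have h5 : Ideal.Quotient.mk P (σ β) = Ideal.Quotient.mk P β := by
    have := hσ _ h4
    rw [map_sub, map_natCast, ← Ideal.Quotient.eq, map_natCast] at this
    rw [this, hc]
  have h6 := geom_sum₂_mul (σ β) β n
  rw [← map_pow, hβ, map_intCast, sub_self, mul_eq_zero] at h6
  rcases h6 with h6 | h6
  · exfalso
    have h7 := congrArg (Ideal.Quotient.mk P) h6
    simp only [map_sum, map_mul, map_pow, h5, map_zero] at h7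
    rw [geom_sum₂_self, mul_eq_zero] at h7
    rcases h7 with h7 | h7
    · have := Nat.le_of_dvd (Nat.pos_of_ne_zero hn0) ((CharP.cast_eq_zero_iff (R ⧸ P) p n).1 h7)
      have := Nat.le_of_dvd (by omega) hn
      omega
    · exact pow_ne_zero _ hx0 h7
  · exact sub_eq_zero.1 h6

section Galois

open scoped Pointwise

variable {K L : Type} [Field K] [NumberField K] [Field L] [NumberField L] [Algebra K L]

/-- primes with trivial decomposition groups split completely -/
theorem split_of_stab [IsGalois K L] (q : Ideal (𝓞 K)) [q.IsPrime] (hq : q ≠ ⊥)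
    (h : ∀ P ∈ q.primesOver (𝓞 L), ∀ σ : Gal(L/K), σ • P = P → σ = 1) :
    (q.primesOver (𝓞 L)).ncard = Module.finrank K L ∧
      ∀ P ∈ q.primesOver (𝓞 L), Ideal.absNorm P = Ideal.absNorm q := by
  have : q.IsMaximal := Ring.DimensionLEOne.maximalOfPrime hq inferInstance
  have key : ∀ P ∈ q.primesOver (𝓞 L), Nat.card (P.inertia Gal(L/K)) * P.inertiaDeg (𝓞 K) = 1 := by
    intro P hP
    have := hP.1
    have := hP.2
    rw [← Ideal.card_stabilizer_eq_card_inertia_mul_finrank q P, Subgroup.card_eq_one,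
      Subgroup.eq_bot_iff_forall]
    exact fun σ hσ => h P hP σ hσ
  constructor
  · obtain ⟨P, hP⟩ := (inferInstance : Nonempty (q.primesOver (𝓞 L)))
    have := hP.1
    have := hP.2
    have h1 := Ideal.ncard_primesOver_mul_card_inertia_mul_finrank (G := Gal(L/K)) q P
    rw [mul_assoc, key P hP, mul_one, IsGalois.card_aut_eq_finrank] at h1
    exact h1
  · intro P hP
    have := hP.1
    have := hP.2
    rw [← Ideal.absNorm_pow_inertiaDeg q P, Nat.eq_one_of_mul_eq_one_left (key P hP), pow_one]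

/-- counting the ideals of prime norm -/
theorem aK_eq_of_stab [IsGalois K L] {p : ℕ} (hp : p.Prime)
    (h : ∀ P : Ideal (𝓞 L), P.IsPrime → (p : 𝓞 L) ∈ P → ∀ σ : Gal(L/K), σ • P = P → σ = 1) :
    aK L p = Module.finrank K L * aK K p := by
  classical
  have hL := Ideal.finite_setOfPred_absNorm_eq (S := 𝓞 L) p
  have hK := Ideal.finite_setOfPred_absNorm_eq (S := 𝓞 K) p
  have eL : aK L p = hL.toFinset.card := by
    rw [aK, ← Set.ncard_eq_toFinset_card _ hL]; rfl
  have eK : aK K p = hK.toFinset.card := by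
    rw [aK, ← Set.ncard_eq_toFinset_card _ hK]; rfl
  have hirr : Irreducible p := hp
  have hmap : ∀ P : Ideal (𝓞 L), Ideal.absNorm P = p → Ideal.absNorm (P.under (𝓞 K)) = p := by
    intro P hP
    have : P.IsPrime := Ideal.isPrime_of_irreducible_absNorm (hP ▸ hirr)
    have h1 := Ideal.absNorm_pow_inertiaDeg (P.under (𝓞 K)) P
    rw [hP] at h1
    exact (hp.eq_one_or_self_of_dvd _ (h1 ▸ dvd_pow_self _
      (Ideal.inertiaDeg_pos P (𝓞 K)).ne')).resolve_left fun e => by
        rw [e, one_pow] at h1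
        exact hp.one_lt.ne h1
  rw [eL, eK, Finset.card_eq_sum_card_fiberwise (f := fun P : Ideal (𝓞 L) => P.under (𝓞 K))
    (t := hK.toFinset) (fun P hP => by
      simp only [Set.Finite.coe_toFinset, Set.mem_ofPred_eq] at hP ⊢
      exact hmap P hP), mul_comm, ← smul_eq_mul, ← Finset.sum_const]
  refine Finset.sum_congr rfl fun q hq => ?_
  have hq : Ideal.absNorm q = p := by simpa using hq
  have : q.IsPrime := Ideal.isPrime_of_irreducible_absNorm (hq ▸ hirr)
  have hq0 : q ≠ ⊥ := fun e => hp.ne_zero (by rw [← hq, e, Ideal.absNorm_bot])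
  obtain ⟨h1, h2⟩ := split_of_stab (L := L) q hq0 fun P hP => h P hP.1 (by
    have := hP.2
    have h3 : (p : 𝓞 K) ∈ q := hq ▸ Ideal.absNorm_mem q
    rw [Ideal.over_def P q, Ideal.under, Ideal.mem_comap, map_natCast] at h3
    exact h3)
  rw [← h1, ← Set.ncard_coe_finset]
  congr 1
  ext P
  simp only [Finset.coe_filter, Set.Finite.mem_toFinset, Set.mem_ofPred_eq]
  constructor
  · rintro ⟨h3, h4⟩
    exact ⟨Ideal.isPrime_of_irreducible_absNorm (h3 ▸ hirr), ⟨h4.symm⟩⟩
  · intro hP
    exact ⟨(h2 P hP).trans hq, hP.2.over.symm⟩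

/-- complete splitting in an extension generated by radicals -/
theorem aK_eq_of_radical [IsGalois K L] {p n : ℕ} (hp : p.Prime) (hn : n ∣ p - 1) {a : ℤ}
    (ha : ¬ (p : ℤ) ∣ a) (h1 : (a : ZMod p) ^ ((p - 1) / n) = 1)
    (hadj : Algebra.adjoin K {β : L | β ^ n = a} = ⊤) : aK L p = Module.finrank K L * aK K p := by
  refine aK_eq_of_stab hp fun P hP hpP σ hσ => ?_
  have hn0 : n ≠ 0 := by
    rintro rfl
    have := Nat.eq_zero_of_zero_dvd hn
    have := hp.one_lt
    omega
  refine AlgEquiv.coe_toAlgHom_injective (AlgHom.ext_of_adjoin_eq_top hadj fun β hβ => ?_)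
  have hβ : β ^ n = a := hβ
  have hint : IsIntegral ℤ β := ⟨X ^ n - C a, monic_X_pow_sub_C a hn0, by
    rw [eval₂_sub, eval₂_C, eval₂_X_pow, hβ]; simp⟩
  obtain ⟨y, rfl⟩ : ∃ y : 𝓞 L, algebraMap (𝓞 L) L y = β := ⟨⟨β, hint⟩, rfl⟩
  have h2 := fix_root P hp hpP hn ha h1 (MulSemiringAction.toRingHom Gal(L/K) (𝓞 L) σ)
    (fun x hx => by rw [← hσ]; exact Ideal.smul_mem_pointwise_smul σ x P hx)
    (β := y) (RingOfIntegers.coe_injective (by rw [map_pow, map_intCast]; exact hβ))
  exact congrArg (algebraMap (𝓞 L) L) h2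

end Galois

theorem spl12 : SPL12 := by
  intro K L _ _ _ _ _ _ p hp h3
  have hζ := IsCyclotomicExtension.zeta_spec 12 K L
  split_ifs with h
  · have : IsGalois K L := IsCyclotomicExtension.isGalois {12} K L
    refine aK_eq_of_radical (n := 12) (a := 1) hp (by omega)
      (fun e => hp.one_lt.ne' (by exact_mod_cast Int.eq_one_of_dvd_one (by positivity) e))
      (by simp) ?_
    rw [eq_top_iff, ← IsCyclotomicExtension.adjoin_primitive_root_eq_top hζ]
    exact Algebra.adjoin_mono (Set.singleton_subset_iff.2 (by simpa using hζ.pow_eq_one))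
  · rw [aK, Nat.card_eq_zero]
    left
    refine ⟨fun ⟨P, hP⟩ => h ?_⟩
    have : P.IsPrime := Ideal.isPrime_of_irreducible_absNorm (hP ▸ (hp : Irreducible p))
    have hP0 : P ≠ ⊥ := fun e => hp.ne_zero (by rw [← hP, e, Ideal.absNorm_bot])
    have : P.IsMaximal := Ring.DimensionLEOne.maximalOfPrime hP0 inferInstance
    have hc : p.Coprime 12 := by
      rw [Nat.Prime.coprime_iff_not_dvd hp]
      intro e
      rcases (hp.dvd_mul (m := 2 ^ 2) (n := 3)).1 e with e | e
      · have := Nat.le_of_dvd (by norm_num) (hp.dvd_of_dvd_pow e)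
        omega
      · have := Nat.le_of_dvd (by norm_num) e
        omega
    have h1 := hζ.toInteger_isPrimitiveRoot.idealQuotient_mk (I := P)
      (by rw [hP]; exact hp.one_lt.ne') (by rw [hP]; exact hc)
    let _ := Ideal.Quotient.field P
    have := Fintype.ofFinite (𝓞 L ⧸ P)
    have h2 := h1.dvd_of_pow_eq_one _
      (FiniteField.pow_card_sub_one_eq_one _ (h1.ne_zero (by norm_num)))
    have h4 : Fintype.card (𝓞 L ⧸ P) = p := by
      rw [← hP, Ideal.absNorm_apply, Submodule.cardQuot_apply, Nat.card_eq_fintype_card]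
    rw [h4] at h2
    omega

end Vale.Agent.P016Z
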