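import Mathlib.FieldTheory.KummerPolynomial
import Mathlib.LinearAlgebra.Matrix.AbsoluteValue
import Mathlib.Analysis.Normed.Unbundled.RingSeminorm
import Mathlib.NumberTheory.NumberField.Discriminant.Basic
import Vale.Agent.P016Z.Cheb.Split

/-!
P016: the Kummer field of `a` and `l`.
-/

open NumberField Finset Polynomial

namespace Vale.Agent.P016Z

section Discr

variable {L : Type} [Field L] [NumberField L]

/-- the discriminant is bounded by that of any integral basis of the vector space -/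
theorem kum_discr_le {m : ℕ} (b : Module.Basis (Fin m) ℚ L) (hb : ∀ i, IsIntegral ℤ (b i)) :
    |(discr L : ℝ)| ≤ |((Algebra.discr ℚ b : ℚ) : ℝ)| := by
  classical
  set B₀ := (integralBasis L).reindex ((integralBasis L).indexEquiv b) with hB₀
  have hint : ∀ i j, ∃ a : ℤ, B₀.repr (b j) i = a := by
    intro i j
    obtain ⟨y, hy⟩ : ∃ y : 𝓞 L, algebraMap (𝓞 L) L y = b j := ⟨⟨b j, hb j⟩, rfl⟩
    refine ⟨(RingOfIntegers.basis L).repr y (((integralBasis L).indexEquiv b).symm i), ?_⟩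
    rw [hB₀, Module.Basis.repr_reindex_apply, ← hy, integralBasis_repr_apply]
    rfl
  choose a ha using hint
  have h1 : Matrix.vecMul (⇑B₀) ((Matrix.of fun i j => (a i j : ℚ)).map (algebraMap ℚ L)) = b := by
    funext j
    rw [Matrix.vecMul, dotProduct]
    conv_rhs => rw [← B₀.sum_repr (b j)]
    refine Finset.sum_congr rfl fun i _ => ?_
    rw [ha i j, Matrix.map_apply, Matrix.of_apply, mul_comm, Algebra.smul_def]
  have h2 := Algebra.discr_of_matrix_vecMul (⇑B₀) (Matrix.of fun i j => (a i j : ℚ))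
  rw [h1] at h2
  have h3 : Algebra.discr ℚ (⇑B₀) = discr L := by
    rw [coe_discr, hB₀, Module.Basis.coe_reindex, Algebra.discr_reindex]
  have h4 : (Matrix.of fun i j => (a i j : ℚ)).det = ((Matrix.of a).det : ℤ) := by
    have := Int.cast_det (R := ℚ) (Matrix.of a)
    rw [this]
    rfl
  have h5 : Algebra.discr ℚ b ≠ 0 := Algebra.discr_not_zero_of_basis ℚ b
  have h6 : (Matrix.of a).det ≠ 0 := by
    intro h0
    rw [h4, h0] at h2
    apply h5
    rw [h2]
    simp
  rw [h2, h3, h4]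
  simp only [Rat.cast_mul, Rat.cast_pow, Rat.cast_intCast]
  rw [abs_mul, abs_pow]
  have h7 : (1 : ℝ) ≤ |((Matrix.of a).det : ℝ)| := by
    exact_mod_cast Int.one_le_abs h6
  calc |(discr L : ℝ)| = 1 ^ 2 * |(discr L : ℝ)| := by ring
    _ ≤ |((Matrix.of a).det : ℝ)| ^ 2 * |(discr L : ℝ)| := by gcongr

/-- bound for the discriminant of a basis with bounded conjugates -/
theorem kum_discr_basis {m : ℕ} (b : Module.Basis (Fin m) ℚ L) {H : ℝ}
    (hb : ∀ i, ∀ φ : L →+* ℂ, ‖φ (b i)‖ ≤ H) :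
    |((Algebra.discr ℚ b : ℚ) : ℝ)| ≤ (m.factorial * H ^ m) ^ 2 := by
  classical
  have hcard : Fintype.card (Fin m) = Fintype.card (L →ₐ[ℚ] ℂ) := by
    rw [AlgHom.card, Fintype.card_fin, Module.finrank_eq_card_basis b, Fintype.card_fin]
  have e : Fin m ≃ (L →ₐ[ℚ] ℂ) := Fintype.equivOfCardEq hcard
  have h1 := Algebra.discr_eq_det_embeddingsMatrixReindex_pow_two ℚ ℂ (b := ⇑b) e
  have h2 : ‖(Algebra.embeddingsMatrixReindex ℚ ℂ (⇑b) e).det‖ ≤ m.factorial * H ^ m := by
    have := Matrix.det_le (A := Algebra.embeddingsMatrixReindex ℚ ℂ (⇑b) e)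
      (abv := NormedField.toAbsoluteValue ℂ) (x := H) (fun i j => hb i (e j).toRingHom)
    rw [Fintype.card_fin, nsmul_eq_mul] at this
    exact this
  have h3 : |((Algebra.discr ℚ b : ℚ) : ℝ)| = ‖(algebraMap ℚ ℂ) (Algebra.discr ℚ b)‖ := by
    rw [eq_ratCast, Complex.norm_ratCast]
  rw [h3, h1, norm_pow]
  gcongr

theorem kum_discr_span (T : Set L) (hT : ∀ x ∈ T, IsIntegral ℤ x) {B : ℝ}
    (hTB : ∀ x ∈ T, ∀ φ : L →+* ℂ, ‖φ x‖ ≤ B) (h1 : Submodule.span ℚ T = ⊤) :
    |(discr L : ℝ)| ≤ ((Module.finrank ℚ L).factorial * B ^ Module.finrank ℚ L) ^ 2 := by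
  obtain ⟨f, hf1, hf2, hf3⟩ := Submodule.exists_fun_fin_finrank_span_eq ℚ T
  have hfr : Module.finrank ℚ (Submodule.span ℚ T) = Module.finrank ℚ L := by
    rw [h1, finrank_top]
  have h2 : ⊤ ≤ Submodule.span ℚ (Set.range f) := by rw [hf2, h1]
  set b := Module.Basis.mk hf3 h2 with hbdef
  have hb : ∀ i, b i = f i := fun i => by rw [hbdef, Module.Basis.mk_apply]
  have h3 := kum_discr_le b (fun i => by rw [hb]; exact hT _ (hf1 i))
  have h4 := kum_discr_basis b (H := B) (fun i φ => by rw [hb]; exact hTB _ (hf1 i) φ)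
  have h5 := h3.trans h4
  rw [hfr] at h5
  exact h5

/-- the radicals of the powers of `a` span a field generated by radicals of `a` -/
theorem kum_span {a : ℤ} (ha : a ≠ 0) {l : ℕ} (hl : 1 < l)
    (hadj : Algebra.adjoin ℚ {β : L | β ^ l = a} = ⊤) :
    Submodule.span ℚ {x : L | ∃ j < l, x ^ l = (a : L) ^ j} = ⊤ := by
  set M : Set L := {x : L | ∃ j < l, x ^ l = (a : L) ^ j} with hM
  have ha' : (a : L) ≠ 0 := by exact_mod_cast ha
  have hmul : ∀ x ∈ M, ∀ y ∈ M, x * y ∈ Submodule.span ℚ M := by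
    rintro x ⟨j, hj, hx⟩ y ⟨k, hk, hy⟩
    by_cases h : j + k < l
    · exact Submodule.subset_span ⟨j + k, h, by rw [mul_pow, hx, hy, pow_add]⟩
    · have e : x * y = (a : ℚ) • (x * y / a) := by
        rw [Algebra.smul_def, map_intCast]; field_simp
      rw [e]
      refine Submodule.smul_mem _ _ (Submodule.subset_span ⟨j + k - l, by omega, ?_⟩)
      rw [div_pow, mul_pow, hx, hy, ← pow_add, pow_sub₀ _ ha' (by omega), div_eq_mul_inv]
  have h1 : (1 : L) ∈ Submodule.span ℚ M := Submodule.subset_span ⟨0, by omega, by simp⟩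
  rw [eq_top_iff]
  intro x _
  have hx : x ∈ Algebra.adjoin ℚ {β : L | β ^ l = a} := by rw [hadj]; exact Algebra.mem_top
  induction hx using Algebra.adjoin_induction with
  | mem y hy => exact Submodule.subset_span ⟨1, hl, by rw [pow_one]; exact hy⟩
  | algebraMap r => rw [Algebra.algebraMap_eq_smul_one]; exact Submodule.smul_mem _ _ h1
  | add y z _ _ h2 h3 => exact Submodule.add_mem _ (h2 trivial) (h3 trivial)
  | mul y z _ _ h2 h3 =>
    have := Submodule.mul_mem_mul (h2 trivial) (h3 trivial)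
    rw [Submodule.span_mul_span] at this
    refine Submodule.span_le.2 ?_ this
    rintro _ ⟨u, hu, v, hv, rfl⟩
    exact hmul u hu v hv

theorem kum_size {a : ℤ} (ha : 2 ≤ |a|) {l : ℕ} (hl : 1 < l)
    (hadj : Algebra.adjoin ℚ {β : L | β ^ l = a} = ⊤) :
    size L ≤ (3 + 2 * Real.log |(a : ℝ)|) * (l : ℝ) ^ 4 := by
  classical
  have ha0 : a ≠ 0 := by rintro rfl; simp at ha
  have ha1 : (1 : ℝ) ≤ |(a : ℝ)| := by
    have : (1 : ℤ) ≤ |a| := by omega
    exact_mod_cast this
  have hsp := kum_span ha0 hl hadj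
  have hd := kum_discr_span _ (B := |(a : ℝ)|) (by
      rintro x ⟨j, _, hx⟩
      exact ⟨X ^ l - C (a ^ j), monic_X_pow_sub_C _ (by omega), by
        rw [eval₂_sub, eval₂_C, eval₂_X_pow, hx]; simp⟩) (by
      rintro x ⟨j, hj, hx⟩ φ
      refine le_of_pow_le_pow_left₀ (n := l) (by omega) (by positivity) ?_
      rw [← norm_pow, ← map_pow, hx, map_pow, map_intCast, norm_pow, Complex.norm_intCast]
      exact pow_le_pow_right₀ ha1 hj.le) hsp
  have hn : Module.finrank ℚ L ≤ l * l := by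
    have e : {x : L | ∃ j < l, x ^ l = (a : L) ^ j} =
        ((range l).biUnion fun j => (nthRoots l ((a : L) ^ j)).toFinset : Finset L) := by
      ext x
      simp [mem_nthRoots (by omega : 0 < l)]
    rw [← finrank_top, ← hsp, e]
    refine (finrank_span_finset_le_card _).trans (card_biUnion_le.trans ?_)
    refine (sum_le_card_nsmul _ _ l fun j _ => ?_).trans (by simp)
    exact (Multiset.toFinset_card_le _).trans (card_nthRoots _ _)
  set n := Module.finrank ℚ L with hndef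
  have hn0 : 0 < n := Module.finrank_pos
  have hD : (0 : ℝ) < |(discr L : ℝ)| := by
    have := discr_ne_zero L
    positivity
  have hf : ((n.factorial : ℕ) : ℝ) ≤ (n : ℝ) ^ n := by exact_mod_cast n.factorial_le_pow
  have hn1 : (1 : ℝ) ≤ n := by exact_mod_cast hn0
  have hlog : Real.log |(discr L : ℝ)| ≤ 2 * (n * (Real.log n + Real.log |(a : ℝ)|)) := by
    have h1 : |(discr L : ℝ)| ≤ ((n * |(a : ℝ)|) ^ n) ^ 2 := by
      refine hd.trans ?_
      rw [mul_pow (n : ℝ)]
      gcongr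
    refine (Real.log_le_log hD h1).trans (le_of_eq ?_)
    rw [Real.log_pow, Real.log_pow, Real.log_mul (by positivity) (by positivity)]
    norm_num
  have h2 : Real.log n ≤ n := (Real.log_le_sub_one_of_pos (by positivity)).trans (by linarith)
  have h3 : 0 ≤ Real.log |(a : ℝ)| := Real.log_nonneg ha1
  have h4 : (n : ℝ) ≤ (l : ℝ) ^ 2 := by rw [sq]; exact_mod_cast hn
  have h5 : (n : ℝ) * n ≤ (l : ℝ) ^ 4 := by
    calc (n : ℝ) * n ≤ (l : ℝ) ^ 2 * (l : ℝ) ^ 2 := by gcongr
      _ = _ := by ring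
  have h6 : (n : ℝ) ≤ (l : ℝ) ^ 4 := le_trans (by nlinarith) h5
  have h7 : (n : ℝ) * Real.log n ≤ n * n := by gcongr
  have h8 : (n : ℝ) * Real.log |(a : ℝ)| ≤ (l : ℝ) ^ 4 * Real.log |(a : ℝ)| := by gcongr
  unfold size
  rw [← hndef]
  nlinarith

end Discr

theorem kum_irreducible {a : ℤ} (ha : 2 ≤ |a|) {l : ℕ} (hl : l.Prime) (hal : |a| < l) :
    Irreducible (X ^ l - C (a : ℚ)) := by
  refine X_pow_sub_C_irreducible_of_prime hl fun b hb => ?_
  have hint : IsIntegral ℤ b := ⟨X ^ l - C a, monic_X_pow_sub_C a hl.ne_zero, by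
    rw [eval₂_sub, eval₂_C, eval₂_X_pow, hb]; simp⟩
  obtain ⟨c, rfl⟩ := IsIntegrallyClosed.isIntegral_iff.1 hint
  have h1 : c ^ l = a := by
    rw [eq_intCast] at hb
    exact_mod_cast hb
  have h2 : |c| ^ l = |a| := by rw [← abs_pow, h1]
  by_cases h : |c| ≤ 1
  · have := pow_le_one₀ (n := l) (abs_nonneg c) h
    omega
  · have h3 : (2 : ℤ) ^ l ≤ |c| ^ l := pow_le_pow_left₀ (by norm_num) (by omega) l
    have h4 : (l : ℤ) < 2 ^ l := by exact_mod_cast Nat.lt_two_pow_self
    omega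

theorem one_le_aK_rat (p : ℕ) : 1 ≤ aK ℚ p := by
  have : Finite {I : Ideal (𝓞 ℚ) // Ideal.absNorm I = p} :=
    (Ideal.finite_setOfPred_absNorm_eq (S := 𝓞 ℚ) p).to_subtype
  have : Nonempty {I : Ideal (𝓞 ℚ) // Ideal.absNorm I = p} :=
    ⟨⟨Ideal.span {(p : 𝓞 ℚ)}, by
      rw [Ideal.absNorm_span_natCast, RingOfIntegers.rank, Module.finrank_self, pow_one]⟩⟩
  exact Nat.card_pos

theorem kum : KUM := by
  intro a ha
  refine ⟨3 + 2 * Real.log |(a : ℝ)|, fun l hl hal => ?_⟩
  have hirr := kum_irreducible ha hl hal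
  have ha0 : a ≠ 0 := by rintro rfl; simp at ha
  have hl2 : 2 < l := by omega
  obtain ⟨f, hf⟩ : ∃ f : ℚ[X], f = X ^ l - C (a : ℚ) := ⟨_, rfl⟩
  rw [← hf] at hirr
  have hdeg : f.natDegree = l := by rw [hf]; exact natDegree_X_pow_sub_C
  obtain ⟨K, _, inst, hK⟩ : ∃ (K : Type) (_ : Field K) (_ : Algebra ℚ K), IsSplittingField ℚ K f :=
    ⟨f.SplittingField, inferInstance, _, IsSplittingField.splittingField f⟩
  have : CharZero K := charZero_of_injective_algebraMap (algebraMap ℚ K).injective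
  obtain rfl : inst = DivisionRing.toRatAlgebra := Subsingleton.elim _ _
  have : NumberField K := { to_finiteDimensional := IsSplittingField.finiteDimensional K f }
  have : IsGalois ℚ K := IsGalois.of_separable_splitting_field hirr.separable
  have hroot : ∀ β : K, β ∈ f.rootSet K → β ^ l = a := by
    intro β hβ
    have := (mem_rootSet.1 hβ).2
    rw [hf, map_sub, map_pow, aeval_X, aeval_C, map_intCast, sub_eq_zero] at this
    exact this
  have hadj : Algebra.adjoin ℚ {β : K | β ^ l = a} = ⊤ := by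
    rw [eq_top_iff, ← IsSplittingField.adjoin_rootSet K f]
    exact Algebra.adjoin_mono hroot
  have hcard := card_rootSet_eq_natDegree hirr.separable (IsSplittingField.splits K f)
  obtain ⟨α, β, hαβ⟩ := Fintype.exists_pair_of_one_lt_card
    (α := f.rootSet K) (by rw [hcard, hdeg]; omega)
  have ha' : (a : K) ≠ 0 := by exact_mod_cast ha0
  have hβ0 : (β : K) ≠ 0 := fun e => ha' (by rw [← hroot β β.2, e, zero_pow hl.ne_zero])
  have hζ : IsPrimitiveRoot ((α : K) / β) l := by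
    have := Fact.mk hl
    have e : orderOf ((α : K) / β) = l := orderOf_eq_prime
      (by rw [div_pow, hroot α α.2, hroot β β.2, div_self ha'])
      (fun e => hαβ (Subtype.ext (eq_of_div_eq_one e)))
    rw [← e]
    exact IsPrimitiveRoot.orderOf _
  have : IsTotallyComplex K :=
    nrRealPlaces_eq_zero_iff.1 (InfinitePlace.IsPrimitiveRoot.nrRealPlaces_eq_zero_of_two_lt hl2 hζ)
  refine ⟨K, inferInstance, inferInstance, inferInstance, kum_size ha hl.one_lt hadj, ?_⟩
  rintro p ⟨hp, h1, h2, h3⟩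
  have h4 : l ∣ Module.finrank ℚ K := hdeg ▸ hirr.natDegree_dvd_finrank (IsSplittingField.splits K f)
  have h5 : l - 1 ∣ Module.finrank ℚ K := by
    rw [← Nat.totient_prime hl, ← natDegree_cyclotomic l ℚ, cyclotomic_eq_minpoly_rat hζ hl.pos]
    exact minpoly.degree_dvd (Algebra.IsIntegral.isIntegral _)
  have h6 : l.Coprime (l - 1) := by
    have : l = (l - 1) + 1 := by omega
    conv_lhs => rw [this]
    simp
  have h7 := Nat.le_of_dvd Module.finrank_pos (h6.mul_dvd_of_dvd_of_dvd h4 h5)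
  rw [aK_eq_of_radical (K := ℚ) hp h1 h2 h3 hadj]
  exact h7.trans (Nat.le_mul_of_pos_right _ (one_le_aK_rat p))

theorem split_of (hC : CHEB) (hK : KUM) : SPLIT := by
  classical
  intro a ha
  obtain ⟨C, δ, hδ, hC⟩ := hC
  obtain ⟨C', hK⟩ := hK a ha
  refine ⟨2 * |C| * (1 + |C'|), δ, hδ, fun l hl hal X hX => ?_⟩
  obtain ⟨K, _, _, _, hs, hb⟩ := hK l hl hal
  have h1 := hC K X hX
  have h2 : ((Ioc X (2 * X)).filter (Bad a l)).card * (l * (l - 1)) ≤
      ∑ p ∈ (Ioc X (2 * X)).filter Nat.Prime, aK K p := by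
    rw [← smul_eq_mul]
    refine (card_nsmul_le_sum _ (aK K) _ fun p hp => hb p (mem_filter.1 hp).2).trans ?_
    exact sum_le_sum_of_subset (monotone_filter_right _ fun p _ hp => hp.1)
  have hl2 : (2 : ℝ) ≤ l := by exact_mod_cast hl.two_le
  have h3 : (((Ioc X (2 * X)).filter (Bad a l)).card : ℝ) * (l * (l - 1)) ≤
      ((∑ p ∈ (Ioc X (2 * X)).filter Nat.Prime, aK K p : ℕ) : ℝ) := by
    have : ((l - 1 : ℕ) : ℝ) = l - 1 := by rw [Nat.cast_sub hl.one_le, Nat.cast_one]
    rw [← this]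
    exact_mod_cast h2
  set N : ℝ := (((Ioc X (2 * X)).filter (Bad a l)).card : ℝ) with hN
  have hN0 : 0 ≤ N := Nat.cast_nonneg _
  have hX1 : (1 : ℝ) ≤ X := by exact_mod_cast (by omega : 1 ≤ X)
  have hA : 0 ≤ (X : ℝ) * Real.log X := mul_nonneg (by linarith) (Real.log_nonneg hX1)
  have hB : 0 ≤ (X : ℝ) ^ (1 - δ) := by positivity
  have hs0 : 0 ≤ size K := by
    unfold size
    have : (1 : ℝ) ≤ |(discr K : ℝ)| := by exact_mod_cast Int.one_le_abs (discr_ne_zero K)
    have := Real.log_nonneg this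
    positivity
  have hs1 : size K ≤ |C'| * (l : ℝ) ^ 4 := hs.trans (by gcongr; exact le_abs_self _)
  set A := (X : ℝ) * Real.log X
  set B := (X : ℝ) ^ (1 - δ)
  have h4 : N * (l : ℝ) ^ 2 ≤ 2 * (N * (l * (l - 1))) := by
    nlinarith [mul_nonneg hN0
      (mul_nonneg (by linarith : (0 : ℝ) ≤ l) (by linarith : (0 : ℝ) ≤ l - 2))]
  have h5 : C * (A + size K * B) ≤ |C| * ((1 + |C'|) * (A + (l : ℝ) ^ 4 * B)) := by
    have h6 : A + size K * B ≤ (1 + |C'|) * (A + (l : ℝ) ^ 4 * B) := by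
      have := mul_le_mul_of_nonneg_right hs1 hB
      have h7 := mul_nonneg (abs_nonneg C') hA
      have h8 : 0 ≤ (l : ℝ) ^ 4 * B := by positivity
      nlinarith
    calc C * (A + size K * B) ≤ |C| * (A + size K * B) := by
          gcongr
          exact le_abs_self _
      _ ≤ _ := by gcongr
  have hl0 : (0 : ℝ) < (l : ℝ) ^ 2 := by positivity
  rw [← mul_le_mul_iff_of_pos_right hl0]
  have e : 2 * |C| * (1 + |C'|) * (A / (l : ℝ) ^ 2 + (l : ℝ) ^ 2 * B) * (l : ℝ) ^ 2 =
      2 * (|C| * ((1 + |C'|) * (A + (l : ℝ) ^ 4 * B))) := by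
    field_simp
  rw [e]
  linarith

end Vale.Agent.P016Z
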