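import Mathlib.Topology.Algebra.InfiniteSum.Ring
import Vale.Agent.P016Z.Cheb.Basic
import Vale.Agent.P026Z.End.Bump

/-!
P016: from smooth Moebius sums over ideals to the reciprocal of the zeta function.
-/

set_option linter.all false

open Filter Topology NumberField IsDedekindDomain

namespace Vale.Agent.P016Z

namespace MI

open EP

section Abstract

variable {P : Type*} [DecidableEq P] {f : P → ℂ}

/-- the Moebius twisted weight -/
noncomputable def mw (f : P → ℂ) (m : Multiset P) : ℂ :=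
  if m.Nodup then (-1) ^ m.card * gw f m else 0

theorem mw_val (S : Finset P) : mw f S.val = ∏ v ∈ S, (-f v) := by
  rw [mw, if_pos S.nodup, Finset.prod_neg]
  rfl

theorem norm_mw_le (m : Multiset P) : ‖mw f m‖ ≤ ‖gw f m‖ := by
  unfold mw
  split_ifs
  · simp
  · simp

theorem tsum_mw (hsum : Summable fun m : Multiset P => ‖gw f m‖) :
    (∑' m : Multiset P, mw f m) * ∑' m : Multiset P, gw f m = 1 := by
  have h0 : Summable (mw f) := Summable.of_norm_bounded hsum norm_mw_le
  have hinj : Function.Injective (Finset.val : Finset P → Multiset P) := Finset.val_injective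
  have h1 : Summable fun S : Finset P => ∏ v ∈ S, (-f v) :=
    (h0.comp_injective hinj).congr fun S => mw_val S
  have h2 : (∑' S : Finset P, ∏ v ∈ S, (-f v)) = ∑' m : Multiset P, mw f m := by
    rw [← hinj.tsum_eq]
    · exact tsum_congr fun S => (mw_val S).symm
    · intro m hm
      rw [Function.mem_support] at hm
      have h4 : m.Nodup := by
        by_contra h5
        exact hm (if_neg h5)
      exact ⟨⟨m, h4⟩, rfl⟩
  have h3 := hasProd_one_add_of_hasSum_prod h1.hasSum
  have h4 : Tendsto (fun S : Finset P => ∏ v ∈ S, (1 - f v)) atTop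
      (𝓝 (∑' S : Finset P, ∏ v ∈ S, (-f v))) := by
    simpa only [HasProd, SummationFilter.unconditional_filter, sub_eq_add_neg] using h3
  rw [← h2, tendsto_nhds_unique h4 (tendsto_prod hsum), inv_mul_cancel₀ (tsum_gw_ne_zero hsum)]

end Abstract

variable {K : Type} [Field K] [NumberField K]

theorem finite_fib (n : ℕ) : Finite {I : Ideal (𝓞 K) // Ideal.absNorm I = n} :=
  (Ideal.finite_setOfPred_absNorm_eq n).to_subtype

theorem norm_tsum_fib_le {g : Ideal (𝓞 K) → ℂ} (hg : ∀ I, ‖g I‖ ≤ 1) (n : ℕ) :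
    ‖∑' I : {I : Ideal (𝓞 K) // Ideal.absNorm I = n}, g I‖ ≤ aK K n := by
  have := finite_fib (K := K) n
  have := Fintype.ofFinite {I : Ideal (𝓞 K) // Ideal.absNorm I = n}
  rw [tsum_fintype, aK, Nat.card_eq_fintype_card]
  refine (norm_sum_le _ _).trans ?_
  refine (Finset.sum_le_sum fun I _ => hg I.1).trans ?_
  simp

theorem summable_ideal {F : ℕ → ℝ} (hF : ∀ n, 0 ≤ F n)
    (h : Summable fun n : ℕ => (aK K n : ℝ) * F n) :
    Summable fun I : Ideal (𝓞 K) => F (Ideal.absNorm I) := by
  rw [← (Equiv.sigmaFiberEquiv (fun I : Ideal (𝓞 K) => Ideal.absNorm I)).summable_iff]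
  have h1 : ((fun I : Ideal (𝓞 K) => F (Ideal.absNorm I)) ∘
      (Equiv.sigmaFiberEquiv (fun I : Ideal (𝓞 K) => Ideal.absNorm I))) = fun x => F x.1 := by
    funext x
    have : Ideal.absNorm ((Equiv.sigmaFiberEquiv
      (fun I : Ideal (𝓞 K) => Ideal.absNorm I)) x) = x.1 := x.2.2
    simp only [Function.comp_apply, this]
  rw [h1, summable_sigma_of_nonneg (fun x => hF _)]
  refine ⟨fun n => ?_, ?_⟩
  · have := finite_fib (K := K) n
    exact Summable.of_finite
  · refine h.congr fun n => ?_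
    have := finite_fib (K := K) n
    have := Fintype.ofFinite {I : Ideal (𝓞 K) // Ideal.absNorm I = n}
    rw [tsum_fintype, aK, Nat.card_eq_fintype_card]
    simp

theorem tsum_ideal {g : Ideal (𝓞 K) → ℂ} (hg : ∀ I, ‖g I‖ ≤ 1) {F : ℕ → ℂ}
    (h : Summable fun n : ℕ => (aK K n : ℝ) * ‖F n‖) :
    ∑' I : Ideal (𝓞 K), g I * F (Ideal.absNorm I) =
      ∑' n : ℕ, (∑' I : {I : Ideal (𝓞 K) // Ideal.absNorm I = n}, g I) * F n := by
  have h0 : Summable fun I : Ideal (𝓞 K) => g I * F (Ideal.absNorm I) := by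
    refine Summable.of_norm_bounded
      (summable_ideal (F := fun n => ‖F n‖) (fun n => norm_nonneg _) h) fun I => ?_
    rw [norm_mul]
    exact mul_le_of_le_one_left (norm_nonneg _) (hg I)
  have h2 := (Equiv.sigmaFiberEquiv (fun I : Ideal (𝓞 K) => Ideal.absNorm I)).summable_iff.mpr h0
  rw [← (Equiv.sigmaFiberEquiv (fun I : Ideal (𝓞 K) => Ideal.absNorm I)).tsum_eq]
  refine h2.tsum_sigma.trans (tsum_congr fun n => ?_)
  rw [← tsum_mul_right]
  refine tsum_congr fun I => ?_
  change g I.1 * F (Ideal.absNorm I.1) = _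
  rw [I.2]

theorem norm_moebI_le (I : Ideal (𝓞 K)) : ‖moebI I‖ ≤ 1 := by
  unfold moebI
  split_ifs
  · simp
  · simp

theorem moebI_bot : moebI (⊥ : Ideal (𝓞 K)) = 0 := by
  unfold moebI
  rw [if_neg]
  exact not_squarefree_zero

open Classical in
theorem moebI_idealEquiv (m : Multiset (HeightOneSpectrum (𝓞 K))) :
    moebI (idealEquiv K m).1 = if m.Nodup then (-1) ^ m.card else 0 := by
  have h1 : UniqueFactorizationMonoid.normalizedFactors (idealEquiv K m).1
      = m.map HeightOneSpectrum.asIdeal := by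
    refine UniqueFactorizationMonoid.normalizedFactors_prod_of_prime ?_
    intro p hp
    obtain ⟨v, _, rfl⟩ := Multiset.mem_map.1 hp
    exact v.prime
  have h2 : Squarefree (idealEquiv K m).1 ↔ m.Nodup := by
    rw [UniqueFactorizationMonoid.squarefree_iff_nodup_normalizedFactors (idealEquiv K m).2, h1,
      Multiset.nodup_map_iff_of_injective (fun v w h => HeightOneSpectrum.ext h)]
  unfold moebI
  rw [h1, Multiset.card_map]
  by_cases h : m.Nodup
  · rw [if_pos (h2.2 h), if_pos h]
  · rw [if_neg (fun h3 => h (h2.1 h3)), if_neg h]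

/-- the principal character modulo `N` -/
noncomputable def chi0 (N : ℕ) : ℕ →* ℂ where
  toFun n := if n.Coprime N then 1 else 0
  map_one' := by simp
  map_mul' a b := by
    by_cases ha : a.Coprime N
    · by_cases hb : b.Coprime N
      · rw [if_pos (Nat.coprime_mul_iff_left.2 ⟨ha, hb⟩), if_pos ha, if_pos hb, one_mul]
      · rw [if_neg (fun h => hb (Nat.coprime_mul_iff_left.1 h).2), if_neg hb, mul_zero]
    · rw [if_neg (fun h => ha (Nat.coprime_mul_iff_left.1 h).1), if_neg ha, zero_mul]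

theorem chi0_apply (N n : ℕ) : chi0 N n = if n.Coprime N then 1 else 0 := rfl

theorem norm_chi0_le (N n : ℕ) : ‖chi0 N n‖ ≤ 1 := by
  rw [chi0_apply]
  split_ifs <;> simp

variable (K) in
/-- the Moebius coefficients -/
noncomputable def mc (N n : ℕ) : ℂ :=
  (∑' I : {I : Ideal (𝓞 K) // Ideal.absNorm I = n}, moebI I.1) * chi0 N n

theorem norm_mc_le (N n : ℕ) : ‖mc K N n‖ ≤ aK K n := by
  rw [mc, norm_mul]
  exact (mul_le_of_le_one_right (norm_nonneg _) (norm_chi0_le N n)).trans
    (norm_tsum_fib_le norm_moebI_le n)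

theorem summable_mc (N : ℕ) {s : ℂ} (hs : 1 < s.re) : LSeriesSummable (mc K N) s := by
  refine Summable.of_norm_bounded (lseriesSummable_a K hs).norm fun n => ?_
  refine LSeries.norm_term_le s ?_
  rw [Complex.norm_natCast]
  exact norm_mc_le N n

theorem lseries_mc (N : ℕ) {s : ℂ} (hs : 1 < s.re) :
    LSeries (mc K N) s * LK K (chi0 N) s = 1 := by
  classical
  rw [Lf_eq (norm_chi0_le N) hs, ← tsum_mw (summable_gw (E := K) (norm_chi0_le N) hs)]
  congr 1
  set F : ℕ → ℂ := fun n => if n = 0 then 0 else chi0 N n * (n : ℂ) ^ (-s) with hF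
  have h1 : Summable fun n : ℕ => (aK K n : ℝ) * ‖F n‖ := by
    refine Summable.of_nonneg_of_le (fun n => by positivity) (fun n => ?_) (summable_aK K hs)
    simp only [hF]
    split_ifs with hn
    · simp
    · gcongr
      rw [norm_mul, norm_natCast_cpow_neg (Nat.pos_of_ne_zero hn)]
      exact mul_le_of_le_one_left (by positivity) (norm_chi0_le N n)
  have h2 : LSeries (mc K N) s = ∑' I : Ideal (𝓞 K), moebI I * F (Ideal.absNorm I) := by
    rw [tsum_ideal norm_moebI_le h1, LSeries]
    refine tsum_congr fun n => ?_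
    rw [LSeries.term_def]
    simp only [hF]
    split_ifs with hn
    · rw [mul_zero]
    · rw [mc, Complex.cpow_neg, div_eq_mul_inv, mul_assoc]
  have hinj : Function.Injective
      (fun m : Multiset (HeightOneSpectrum (𝓞 K)) => (idealEquiv K m).1) :=
    Subtype.val_injective.comp (idealEquiv K).injective
  rw [h2, ← hinj.tsum_eq]
  · refine tsum_congr fun m => ?_
    rw [moebI_idealEquiv, absNorm_idealEquiv, mw, gw_fw]
    simp only [hF, if_neg (Nm_pos m).ne']
    split_ifs
    · rfl
    · rw [zero_mul]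
  · intro I hI
    rw [Function.mem_support] at hI
    have h4 : I ≠ ⊥ := by
      rintro rfl
      exact hI (by rw [moebI_bot, zero_mul])
    exact ⟨(idealEquiv K).symm ⟨I, h4⟩, by simp⟩

open Vale.Agent.P026Z.End in
theorem smSum_mc (N : ℕ) {W : ℝ → ℂ} {b : ℝ} (hW : ∀ x, b < x → W x = 0) {t : ℝ} (ht : 0 < t) :
    smSum (mc K N) W t = ∑' I : Ideal (𝓞 K), if (Ideal.absNorm I).Coprime N then
        moebI I * W ((Ideal.absNorm I : ℝ) / t⁻¹) else 0 := by
  set F : ℕ → ℂ := fun n => chi0 N n * W (n * t) with hF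
  have h1 : Summable fun n : ℕ => (aK K n : ℝ) * ‖F n‖ := by
    obtain ⟨B, hB⟩ := exists_nat_gt (b / t)
    refine summable_of_ne_finset_zero (s := Finset.range B) fun n hn => ?_
    rw [Finset.mem_range, not_lt] at hn
    have h2 : (B : ℝ) ≤ n := by exact_mod_cast hn
    have h3 : b < n * t := by
      rw [← div_lt_iff₀ ht]; linarith
    simp only [hF, hW _ h3, mul_zero, norm_zero]
  have h2 := tsum_ideal (K := K) norm_moebI_le h1
  have h3 : smSum (mc K N) W t =
      ∑' n : ℕ, (∑' I : {I : Ideal (𝓞 K) // Ideal.absNorm I = n}, moebI I.1) * F n := by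
    unfold smSum
    refine tsum_congr fun n => ?_
    rw [mc, mul_assoc]
  rw [h3, ← h2]
  refine tsum_congr fun I => ?_
  simp only [hF, chi0_apply, div_inv_eq_mul]
  split_ifs
  · rw [one_mul]
  · rw [zero_mul, mul_zero]

end MI

open MI Vale.Agent.P026Z.End Asymptotics in
theorem muInv : MUINV := by
  intro K _ _ θ hμ
  obtain ⟨N0, hN0, hμ⟩ := hμ
  refine ⟨N0, hN0, fun ρ => ?_⟩
  obtain ⟨W, hW1, -, -, hW4, hW5⟩ := exists_bump ρ (a := 1) (b := 2) one_pos one_lt_two
  set Wc : ℝ → ℂ := fun x => (W x : ℂ) with hWc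
  have hsupp : ∀ x, Wc x ≠ 0 → 1 ≤ x ∧ x ≤ 2 := by
    intro x hx
    have h1 : x ∈ tsupport W := subset_tsupport W (by
      intro h; exact hx (by simp only [hWc, h, Complex.ofReal_zero]))
    exact ⟨(hW4 h1).1.le, (hW4 h1).2.le⟩
  have hWa : ∀ x, x < 1 → Wc x = 0 := fun x hx => by
    by_contra h; linarith [(hsupp x h).1]
  have hWb : ∀ x, 2 < x → Wc x = 0 := fun x hx => by
    by_contra h; linarith [(hsupp x h).2]
  have hsm : ContDiff ℝ (⊤ : ℕ∞) Wc := Complex.ofRealCLM.contDiff.comp hW1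
  have hc : Continuous Wc := hsm.continuous
  have hwt : Ab.IsWt Wc := ⟨hsm, 1, 2, one_pos, hsupp⟩
  refine ⟨mellin (smSum (mc K N0) Wc), mellin Wc, fun s hs => ?_,
    differentiable_mellin_of_supp hc one_pos hWa hWb, hW5, fun s hs => ?_⟩
  · have hs' : θ < s.re := hs
    obtain ⟨C, hC⟩ := hμ Wc hwt ((θ + s.re) / 2) (by linarith)
    have hA : smSum (mc K N0) Wc =O[𝓝[>] 0] (fun t : ℝ => t ^ (-((θ + s.re) / 2))) := by
      refine IsBigO.of_bound C ?_
      filter_upwards [Ioc_mem_nhdsGT (show (0 : ℝ) < 1 from one_pos)] with t ht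
      rw [smSum_mc N0 hWb ht.1]
      refine (hC t⁻¹ ((one_le_inv₀ ht.1).2 ht.2)).trans (le_of_eq ?_)
      rw [Real.norm_of_nonneg (Real.rpow_nonneg ht.1.le _), Real.inv_rpow ht.1.le,
        Real.rpow_neg ht.1.le]
    refine DifferentiableAt.differentiableWithinAt ?_
    refine mellin_differentiableAt_of_isBigO_rpow (a := s.re + 1) (b := (θ + s.re) / 2)
      ((continuousOn_smSum _ hc hWb).locallyIntegrableOn measurableSet_Ioi) ?_ (by linarith) hA
      (by linarith)
    refine isBigO_top_of_supp (b := 2) (fun x hx => ?_) _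
    exact smSum_eq_zero _ hWb (hWa 0 one_pos) hx (by linarith)
  · rw [mellin_smSum hc one_pos hWa hWb (summable_mc N0 hs), mul_right_comm]
    have h1 := lseries_mc (K := K) N0 hs
    change LSeries (mc K N0) s * LK K (chi0 N0) s * mellin Wc s = _
    rw [h1, one_mul]

end Vale.Agent.P016Z
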