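import Mathlib.NumberTheory.LSeries.Deriv
import Mathlib.NumberTheory.LSeries.Linearity
import Mathlib.NumberTheory.Cyclotomic.PrimitiveRoots
import Vale.Agent.P016Z.Cheb.MuInv

/-!
P016: the zero free half plane of the zeta function of a totally complex field, from the Moebius
bound for the fields which contain the twelfth roots of unity.
-/

set_option linter.all false

open Filter Topology NumberField

namespace Vale.Agent.P016Z

namespace NV

/-- the character modulo `12` of conductor `4` -/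
def c1 : ZMod 12 →* ℤ where
  toFun a := if a = 1 ∨ a = 5 then 1 else if a = 7 ∨ a = 11 then -1 else 0
  map_one' := by decide
  map_mul' := by decide

/-- the character modulo `12` of conductor `3` -/
def c2 : ZMod 12 →* ℤ where
  toFun a := if a = 1 ∨ a = 7 then 1 else if a = 5 ∨ a = 11 then -1 else 0
  map_one' := by decide
  map_mul' := by decide

/-- the character modulo `12` of conductor `12` -/
def c3 : ZMod 12 →* ℤ where
  toFun a := if a = 1 ∨ a = 11 then 1 else if a = 5 ∨ a = 7 then -1 else 0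
  map_one' := by decide
  map_mul' := by decide

/-- a character modulo `12` as a complex valued function on the natural numbers -/
noncomputable def lift (c : ZMod 12 →* ℤ) : ℕ →* ℂ :=
  (Int.castRingHom ℂ).toMonoidHom.comp (c.comp (Nat.castRingHom (ZMod 12)).toMonoidHom)

theorem lift_apply (c : ZMod 12 →* ℤ) (n : ℕ) : lift c n = (c (n : ZMod 12) : ℂ) := rfl

theorem lift_per (c : ZMod 12 →* ℤ) (n : ℕ) : lift c (n + 12) = lift c n := by
  rw [lift_apply, lift_apply, Nat.cast_add, ZMod.natCast_self, add_zero]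

theorem norm_lift_le {c : ZMod 12 →* ℤ} (hc : ∀ a, |c a| ≤ 1) (n : ℕ) : ‖lift c n‖ ≤ 1 := by
  rw [lift_apply, Complex.norm_intCast]
  exact_mod_cast hc _

theorem abs_c1 : ∀ a, |c1 a| ≤ 1 := by decide

theorem abs_c2 : ∀ a, |c2 a| ≤ 1 := by decide

theorem abs_c3 : ∀ a, |c3 a| ≤ 1 := by decide

theorem sum_c : ∀ a : ZMod 12, a.val % 2 ≠ 0 → a.val % 3 ≠ 0 →
    1 + c1 a + c2 a + c3 a = if a.val = 1 then 4 else 0 := by decide

theorem sum_lift {p : ℕ} (hp : p.Prime) (h3 : 3 < p) :
    1 + lift c1 p + lift c2 p + lift c3 p = if p % 12 = 1 then 4 else 0 := by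
  have h2 : p % 2 ≠ 0 := fun h => by
    have := (Nat.prime_dvd_prime_iff_eq Nat.prime_two hp).1 (Nat.dvd_of_mod_eq_zero h)
    omega
  have h3' : p % 3 ≠ 0 := fun h => by
    have := (Nat.prime_dvd_prime_iff_eq Nat.prime_three hp).1 (Nat.dvd_of_mod_eq_zero h)
    omega
  have h := sum_c (p : ZMod 12) (by rw [ZMod.val_natCast]; omega) (by rw [ZMod.val_natCast]; omega)
  rw [ZMod.val_natCast] at h
  rw [lift_apply, lift_apply, lift_apply]
  split_ifs at h ⊢
  · exact_mod_cast h
  · exact_mod_cast h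

theorem differentiable_lseries {e : ℕ → ℂ} {B : ℕ} (he : ∀ n, B ≤ n → e n = 0) :
    Differentiable ℂ (LSeries e) := by
  have h : LSeries e = fun s => ∑ n ∈ Finset.range B, LSeries.term e s n := by
    funext s
    refine tsum_eq_sum fun n hn => ?_
    rw [Finset.mem_range, not_lt] at hn
    rw [LSeries.term_def, he n hn, zero_div, ite_self]
  rw [h]
  exact Differentiable.fun_sum fun n _ s => (LSeries.hasDerivAt_term e n s).differentiableAt

theorem summable_fin {e : ℕ → ℂ} {B : ℕ} (he : ∀ n, B ≤ n → e n = 0) (s : ℂ) :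
    LSeriesSummable e s := by
  refine summable_of_ne_finset_zero (s := Finset.range B) fun n hn => ?_
  rw [Finset.mem_range, not_lt] at hn
  rw [LSeries.term_def, he n hn, zero_div, ite_self]

theorem exists_entire (hS : SPL12) (K L : Type) [Field K] [NumberField K] [Field L] [NumberField L]
    [Algebra K L] [IsCyclotomicExtension {12} K L] {N : ℕ} (hN : N ≠ 0) :
    ∃ E : ℂ → ℂ, Differentiable ℂ E ∧ ∀ s : ℂ, 1 < s.re → 4 * PK L (MI.chi0 N) s =
      Module.finrank K L * (PK K (1 : ℕ →* ℂ) s + PK K (lift c1) s + PK K (lift c2) s +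
        PK K (lift c3) s) + E s := by
  set d : ℂ := ((Module.finrank K L : ℕ) : ℂ) with hd
  set a : ℕ → ℂ := fun n => if n.Prime then MI.chi0 N n * aK L n else 0 with ha
  set a0 : ℕ → ℂ := fun n => if n.Prime then (1 : ℕ →* ℂ) n * aK K n else 0 with ha0
  set a1 : ℕ → ℂ := fun n => if n.Prime then lift c1 n * aK K n else 0 with ha1
  set a2 : ℕ → ℂ := fun n => if n.Prime then lift c2 n * aK K n else 0 with ha2
  set a3 : ℕ → ℂ := fun n => if n.Prime then lift c3 n * aK K n else 0 with ha3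
  set e : ℕ → ℂ := (4 : ℂ) • a - d • (a0 + a1 + a2 + a3) with he
  have h1 : ∀ n, N + 4 ≤ n → e n = 0 := by
    intro n hn
    simp only [he, ha, ha0, ha1, ha2, ha3, Pi.sub_apply, Pi.smul_apply, Pi.add_apply, smul_eq_mul]
    by_cases hp : n.Prime
    · have hc : n.Coprime N := (Nat.Prime.coprime_iff_not_dvd hp).2 fun h => by
        have := Nat.le_of_dvd (Nat.pos_of_ne_zero hN) h
        omega
      have h2 := hS K L n hp (by omega)
      have h3 := sum_lift hp (by omega)
      simp only [if_pos hp, MI.chi0_apply, if_pos hc, MonoidHom.one_apply]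
      rw [← add_mul, ← add_mul, ← add_mul, h3, h2]
      split_ifs
      · push_cast; ring
      · simp
    · simp only [if_neg hp]
      ring
  refine ⟨LSeries e, differentiable_lseries h1, fun s hs => ?_⟩
  have s0 : LSeriesSummable a0 s := summable_PK (fun n => by simp) hs
  have s1 : LSeriesSummable a1 s := summable_PK (norm_lift_le abs_c1) hs
  have s2 : LSeriesSummable a2 s := summable_PK (norm_lift_le abs_c2) hs
  have s3 : LSeriesSummable a3 s := summable_PK (norm_lift_le abs_c3) hs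
  have s4 : LSeriesSummable a s := summable_PK (MI.norm_chi0_le N) hs
  rw [he, LSeries_sub (s4.smul _) ((((s0.add s1).add s2).add s3).smul _), LSeries_smul,
    LSeries_smul, LSeries_add ((s0.add s1).add s2) s3, LSeries_add (s0.add s1) s2,
    LSeries_add s0 s1]
  change 4 * LSeries a s = d * (LSeries a0 s + LSeries a1 s + LSeries a2 s + LSeries a3 s) + _
  ring

theorem cont_one_ne {K : Type} [Field K] [NumberField K] {F : ℂ → ℂ}
    (hF : IsCont K (fun _ => 1) F) : F 1 ≠ 0 := by
  have hUo : IsOpen {s : ℂ | 3 / 4 < s.re} := isOpen_lt continuous_const Complex.continuous_re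
  have h1 : ContinuousAt F 1 :=
    (hF.1.differentiableAt (hUo.mem_nhds (by norm_num))).continuousAt
  have h2 : Tendsto (fun s : ℝ => F s) (𝓝[>] 1) (𝓝 (F 1)) := by
    have h3 : Tendsto (fun s : ℝ => (s : ℂ)) (𝓝 1) (𝓝 1) :=
      Complex.continuous_ofReal.tendsto' 1 1 Complex.ofReal_one
    exact (h1.tendsto.comp h3).mono_left nhdsWithin_le_nhds
  have h3 : Tendsto (fun s : ℝ => F s) (𝓝[>] 1) (𝓝 (dedekindZeta_residue K)) := by
    refine (tendsto_sub_one_mul_dedekindZeta_nhdsGT K).congr' ?_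
    filter_upwards [self_mem_nhdsWithin] with s hs
    rw [hF.2 s (by simpa using hs), LK_one]
  rw [tendsto_nhds_unique h2 h3]
  exact_mod_cast dedekindZeta_residue_ne_zero K

end NV

open NV in
theorem nonVan {θ : ℝ} (h1 : 3 / 4 ≤ θ) (_h2 : θ < 1) (hC : HCONT) (hE : EXPLOG) (hI : MUINV)
    (hS : SPL12) (hM : MUB θ) : NONVAN θ := by
  intro K _ _ _ F hF ρ hρ
  by_cases hρ1 : ρ = 1
  · rw [hρ1]; exact cont_one_ne hF
  let L := CyclotomicField 12 K
  obtain ⟨N, hN, hN'⟩ := hI L θ (hM L _ (IsCyclotomicExtension.zeta_spec 12 K L))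
  obtain ⟨M, V, hM1, hV1, hV2, hMV⟩ := hN' ρ
  obtain ⟨E, hE1, hE2⟩ := exists_entire hS K L hN
  obtain ⟨C, hE⟩ := hE
  obtain ⟨g, hg1, -, hg2⟩ := hE L (MI.chi0 N) (MI.norm_chi0_le N)
  obtain ⟨g0, h01, -, h02⟩ := hE K 1 (fun n => by simp)
  obtain ⟨g1, h11, -, h12⟩ := hE K (lift c1) (norm_lift_le abs_c1)
  obtain ⟨g2, h21, -, h22⟩ := hE K (lift c2) (norm_lift_le abs_c2)
  obtain ⟨g3, h31, -, h32⟩ := hE K (lift c3) (norm_lift_le abs_c3)
  obtain ⟨F1, hF1⟩ := hC K 12 (by norm_num) (lift c1) (lift_per c1)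
  obtain ⟨F2, hF2⟩ := hC K 12 (by norm_num) (lift c2) (lift_per c2)
  obtain ⟨F3, hF3⟩ := hC K 12 (by norm_num) (lift c3) (lift_per c3)
  set d := Module.finrank K L with hd
  have hd0 : d ≠ 0 := by
    have : FiniteDimensional K L := IsCyclotomicExtension.finiteDimensional {12} K L
    exact Module.finrank_pos.ne'
  set U : Set ℂ := {s | θ < s.re} with hU
  have hUo : IsOpen U := isOpen_lt continuous_const Complex.continuous_re
  have hUc : IsPreconnected U := (convex_halfSpace_re_gt θ).isPreconnected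
  have hsub : U ⊆ {s : ℂ | 3 / 4 < s.re} := fun s hs => lt_of_le_of_lt h1 hs
  have hA : AnalyticOnNhd ℂ (fun s => V s ^ 4 * ((s - 1) ^ 4) ^ d) U := by
    refine DifferentiableOn.analyticOnNhd (fun s _ => ?_) hUo
    refine DifferentiableAt.differentiableWithinAt ?_
    have := hV1 s
    fun_prop
  have hB : AnalyticOnNhd ℂ (fun s => M s ^ 4 *
      Complex.exp (E s + 4 * g s - d * (g0 s + g1 s + g2 s + g3 s)) *
        (F s * F1 s * F2 s * F3 s) ^ d) U := by
    refine DifferentiableOn.analyticOnNhd ?_ hUo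
    have a1 := hE1.differentiableOn (s := U)
    have a2 := hg1.mono hsub
    have a3 := h01.mono hsub
    have a4 := h11.mono hsub
    have a5 := h21.mono hsub
    have a6 := h31.mono hsub
    have a7 := hF.1.mono hsub
    have a8 := hF1.1.mono hsub
    have a9 := hF2.1.mono hsub
    have a10 := hF3.1.mono hsub
    exact ((hM1.pow 4).mul ((a1.add (a2.const_mul 4)).sub
      ((((a3.add a4).add a5).add a6).const_mul _)).cexp).mul
        ((((a7.mul a8).mul a9).mul a10).pow d)
  set z₀ : ℂ := ((max θ 1 + 1 : ℝ) : ℂ) with hz₀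
  have hz1 : z₀ ∈ U := by
    change θ < z₀.re
    rw [hz₀, Complex.ofReal_re]; linarith [le_max_left θ 1]
  have hz2 : 1 < z₀.re := by rw [hz₀, Complex.ofReal_re]; linarith [le_max_right θ 1]
  have h3 : (fun s => V s ^ 4 * ((s - 1) ^ 4) ^ d) =ᶠ[𝓝 z₀] fun s => M s ^ 4 *
      Complex.exp (E s + 4 * g s - d * (g0 s + g1 s + g2 s + g3 s)) *
        (F s * F1 s * F2 s * F3 s) ^ d := by
    filter_upwards [(isOpen_lt continuous_const Complex.continuous_re).mem_nhds
      (show z₀ ∈ {s : ℂ | 1 < s.re} from hz2)] with s hs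
    have b0 : F s = (s - 1) * LK K (1 : ℕ →* ℂ) s := hF.2 s hs
    have b1 : M s * LK L (MI.chi0 N) s = V s := hMV s hs
    have b2 : F s * F1 s * F2 s * F3 s = (s - 1) ^ 4 * Complex.exp ((PK K (1 : ℕ →* ℂ) s +
        PK K (lift c1) s + PK K (lift c2) s + PK K (lift c3) s) +
          (g0 s + g1 s + g2 s + g3 s)) := by
      rw [b0, hF1.2 s hs, hF2.2 s hs, hF3.2 s hs, h02 s hs, h12 s hs, h22 s hs, h32 s hs]
      simp only [Complex.exp_add]
      ring
    have b3 : Complex.exp (PK L (MI.chi0 N) s + g s) ^ 4 =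
        Complex.exp (E s + 4 * g s - d * (g0 s + g1 s + g2 s + g3 s)) *
          Complex.exp ((PK K (1 : ℕ →* ℂ) s + PK K (lift c1) s + PK K (lift c2) s +
            PK K (lift c3) s) + (g0 s + g1 s + g2 s + g3 s)) ^ d := by
      rw [← Complex.exp_nat_mul, ← Complex.exp_nat_mul, ← Complex.exp_add]
      congr 1
      have := hE2 s hs
      push_cast
      linear_combination this
    rw [← b1, b2, hg2 s hs, mul_pow, mul_pow, b3]
    ring
  have h4 := hA.eqOn_of_preconnected_of_eventuallyEq hB hUc hz1 h3 (show ρ ∈ U from hρ)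
  intro h
  simp only [h, zero_mul, zero_pow hd0, mul_zero] at h4
  exact mul_ne_zero (pow_ne_zero _ hV2) (pow_ne_zero _ (pow_ne_zero _ (sub_ne_zero.2 hρ1))) h4

end Vale.Agent.P016Z
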